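import Mathlib

/-!
Branches for the Lyapunov function: sorted exponent vectors with a snapped/free pattern per slot.
-/

namespace Vale.Agent.P072

open Finset

variable {d : ℕ}

/-- Offset of slot `n` in the binary tree of scales. -/
noncomputable def base (e : Fin d → Bool) : ℕ → ℕ
  | 0 => 0
  | n + 1 => base e n + if h : n < d then (if e ⟨n, h⟩ then 2 ^ (d - 1 - n) else 0) else 0

theorem base_congr {e e' : Fin d → Bool} : ∀ n, (∀ r : Fin d, (r : ℕ) < n → e r = e' r) →
    base e n = base e' n
  | 0, _ => rfl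
  | n + 1, h => by
    have := base_congr n (fun r hr => h r (by omega))
    simp only [base, this]
    by_cases hn : n < d
    · simp only [hn, dif_pos]; rw [h ⟨n, hn⟩ (by simp)]
    · simp only [hn, dif_neg, not_false_eq_true]

theorem base_mono (e : Fin d → Bool) {r s : ℕ} (h : r ≤ s) : base e r ≤ base e s := by
  induction s, h using Nat.le_induction with
  | base => rfl
  | succ n _ ih => simp only [base]; omega

theorem base_tail (e : Fin d → Bool) {r s : ℕ} (h : r ≤ s) (hs : s ≤ d) :
    base e s + 2 ^ (d - s) ≤ base e r + 2 ^ (d - r) := by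
  induction s, h using Nat.le_induction with
  | base => rfl
  | succ n _ ih =>
    have ih := ih (by omega)
    have hn : n < d := by omega
    have h1 : d - n = (d - 1 - n) + 1 := by omega
    have h2 : d - (n + 1) = d - 1 - n := by omega
    rw [h1, pow_succ] at ih
    rw [h2]
    simp only [base, hn, dif_pos]
    split_ifs <;> omega

/-- Level of slot `s`. -/
noncomputable def lev (e : Fin d → Bool) (s : Fin d) : ℕ := base e s + 2 ^ (d - 1 - (s : ℕ))

/-- Scale of slot `s`. -/
noncomputable def rad (Q : ℝ) (e : Fin d → Bool) (s : Fin d) : ℝ := Q ^ lev e s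

theorem lev_pos (e : Fin d → Bool) (s : Fin d) : 1 ≤ lev e s := by
  unfold lev; have := Nat.one_le_two_pow (n := d - 1 - (s : ℕ)); omega

theorem lev_le (e : Fin d → Bool) (s : Fin d) : lev e s ≤ 2 ^ d := by
  have h := base_tail e (r := 0) (Nat.zero_le (s : ℕ)) s.isLt.le
  have : 2 ^ (d - 1 - (s : ℕ)) ≤ 2 ^ (d - (s : ℕ)) := Nat.pow_le_pow_right (by norm_num) (by omega)
  simp only [base, Nat.zero_add, Nat.sub_zero] at h
  unfold lev; omega

theorem lev_lt_of_false {e : Fin d → Bool} {r s : Fin d} (hrs : r < s) (he : e r = false) :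
    lev e s < lev e r := by
  have h := base_tail e (r := (r : ℕ) + 1) (s := (s : ℕ)) hrs s.isLt.le
  have hb : base e ((r : ℕ) + 1) = base e (r : ℕ) := by simp [base, r.isLt, he]
  have h2 : d - ((r : ℕ) + 1) = d - 1 - (r : ℕ) := by omega
  have h3 : 2 ^ (d - (s : ℕ)) = 2 * 2 ^ (d - 1 - (s : ℕ)) := by
    rw [show d - (s : ℕ) = (d - 1 - (s : ℕ)) + 1 by omega, pow_succ]; ring
  have := Nat.one_le_two_pow (n := d - 1 - (s : ℕ))
  rw [hb, h2] at h
  unfold lev; omega

theorem lev_lt_of_true {e : Fin d → Bool} {r s : Fin d} (hrs : r < s) (he : e r = true) :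
    lev e r < lev e s := by
  have h := base_mono e (r := (r : ℕ) + 1) (s := (s : ℕ)) hrs
  have hb : base e ((r : ℕ) + 1) = base e (r : ℕ) + 2 ^ (d - 1 - (r : ℕ)) := by
    simp [base, r.isLt, he]
  have := Nat.one_le_two_pow (n := d - 1 - (s : ℕ))
  unfold lev; omega

theorem rad_congr (Q : ℝ) {e e' : Fin d → Bool} {s : Fin d} (h : ∀ r, r < s → e r = e' r) :
    rad Q e s = rad Q e' s := by
  unfold rad lev; rw [base_congr (e := e) (e' := e') (s : ℕ) (fun r hr => h r hr)]

theorem le_rad {Q : ℝ} (hQ : 1 ≤ Q) (e : Fin d → Bool) (s : Fin d) : Q ≤ rad Q e s :=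
  le_self_pow₀ hQ (by have := lev_pos e s; omega)

theorem rad_le {Q : ℝ} (hQ : 1 ≤ Q) (e : Fin d → Bool) (s : Fin d) : rad Q e s ≤ Q ^ (2 ^ d) :=
  pow_le_pow_right₀ hQ (lev_le e s)

theorem rad_pos {Q : ℝ} (hQ : 1 ≤ Q) (e : Fin d → Bool) (s : Fin d) : 0 < rad Q e s :=
  lt_of_lt_of_le (by linarith) (le_rad hQ e s)

theorem rad_gap_false {Q : ℝ} (hQ : 1 ≤ Q) {e : Fin d → Bool} {r s : Fin d} (hrs : r < s)
    (he : e r = false) : Q * rad Q e s ≤ rad Q e r := by
  have := lev_lt_of_false hrs he
  calc Q * rad Q e s = Q ^ (lev e s + 1) := by rw [rad, pow_succ]; ring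
    _ ≤ _ := pow_le_pow_right₀ hQ this

theorem rad_gap_true {Q : ℝ} (hQ : 1 ≤ Q) {e : Fin d → Bool} {r s : Fin d} (hrs : r < s)
    (he : e r = true) : Q * rad Q e r ≤ rad Q e s := by
  have := lev_lt_of_true hrs he
  calc Q * rad Q e r = Q ^ (lev e r + 1) := by rw [rad, pow_succ]; ring
    _ ≤ _ := pow_le_pow_right₀ hQ this

/-- Bound on the integer vectors used at slot `n`. -/
noncomputable def nb (M d n : ℕ) : ℕ := (fun k => 2 * k * k)^[d - 1 - n] (M + 1)

theorem le_nb (M d n : ℕ) : M + 1 ≤ nb M d n := by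
  unfold nb
  generalize d - 1 - n = k
  induction k with
  | zero => simp
  | succ k ih => rw [Function.iterate_succ_apply']; nlinarith

theorem one_le_nb (M d n : ℕ) : 1 ≤ nb M d n := le_trans (by omega) (le_nb M d n)

theorem nb_step {M d n : ℕ} (h : n + 1 < d) :
    nb M d n = 2 * nb M d (n + 1) * nb M d (n + 1) := by
  unfold nb
  rw [show d - 1 - n = (d - 1 - (n + 1)) + 1 by omega, Function.iterate_succ_apply']

/-- Accumulated loss in the gap lemma. -/
noncomputable def cN (M d : ℕ) : ℕ → ℕ
  | 0 => 1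
  | n + 1 => cN M d n * nb M d n

theorem one_le_cN (M d : ℕ) : ∀ n, 1 ≤ cN M d n
  | 0 => le_refl _
  | n + 1 => Nat.one_le_iff_ne_zero.mpr (Nat.mul_ne_zero (by have := one_le_cN M d n; omega)
      (by have := one_le_nb M d n; omega))

theorem cN_mono (M d : ℕ) {n n' : ℕ} (h : n ≤ n') : cN M d n ≤ cN M d n' := by
  induction n', h using Nat.le_induction with
  | base => rfl
  | succ k _ ih => exact le_trans ih (Nat.le_mul_of_pos_right _ (one_le_nb M d k))

/-- Integer dot product. -/
noncomputable def dot (v : Fin d → ℤ) (a : Fin d → ℝ) : ℝ := ∑ j, (v j : ℝ) * a j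

/-- Admissible integer vectors at slot `s`. -/
def Vec (M : ℕ) (s : Fin d) (v : Fin d → ℤ) : Prop :=
  (∀ j, s < j → v j = 0) ∧ v s ≠ 0 ∧ ∀ j, |v j| ≤ (nb M d s : ℤ)

/-- The closed set of exponent vectors belonging to the pattern `e`. -/
def Adm (Q : ℝ) (M : ℕ) (e : Fin d → Bool) (a : Fin d → ℝ) : Prop :=
  Antitone a ∧ ∀ s, if e s then (∃ v, Vec M s v ∧ dot v a = 0)
    else ∀ v, Vec M s v → |(v s : ℝ)| * rad Q e s ≤ |dot v a|

theorem adm_true {Q : ℝ} {M : ℕ} {e : Fin d → Bool} {a : Fin d → ℝ} (h : Adm Q M e a) {s : Fin d}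
    (hs : e s = true) : ∃ v, Vec M s v ∧ dot v a = 0 := by
  have := h.2 s; rwa [if_pos hs] at this

theorem adm_false {Q : ℝ} {M : ℕ} {e : Fin d → Bool} {a : Fin d → ℝ} (h : Adm Q M e a) {s : Fin d}
    (hs : e s = false) {v : Fin d → ℤ} (hv : Vec M s v) :
    |(v s : ℝ)| * rad Q e s ≤ |dot v a| := by
  have := h.2 s; rw [if_neg (by simp [hs])] at this; exact this v hv

theorem gap_aux {Q : ℝ} (hQ : 1 ≤ Q) {M : ℕ} {e : Fin d → Bool} {a : Fin d → ℝ}
    (h : Adm Q M e a) : ∀ n, n ≤ d → ∀ v : Fin d → ℤ, (∀ j : Fin d, n ≤ (j : ℕ) → v j = 0) →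
      (∀ j, |v j| ≤ (nb M d (n - 1) : ℤ)) →
      dot v a = 0 ∨ ∃ r : Fin d, e r = false ∧ rad Q e r ≤ (cN M d n : ℝ) * |dot v a|
  | 0, _, v, hv, _ => Or.inl (by
      unfold dot; exact Finset.sum_eq_zero (fun j _ => by simp [hv j (Nat.zero_le _)]))
  | n + 1, hn, v, hv, hb => by
    have hnd : n < d := hn
    set s : Fin d := ⟨n, hnd⟩ with hs
    simp only [Nat.add_sub_cancel] at hb
    have hc : (1 : ℝ) ≤ cN M d n := by exact_mod_cast one_le_cN M d n
    have hN : (1 : ℝ) ≤ nb M d n := by exact_mod_cast one_le_nb M d n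
    have hcs : (cN M d (n + 1) : ℝ) = cN M d n * nb M d n := by simp [cN]
    have lift : ∀ w : Fin d → ℤ, (∀ j : Fin d, n ≤ (j : ℕ) → w j = 0) →
        (∀ j, |w j| ≤ 2 * (nb M d n : ℤ) * nb M d n) →
        dot w a = 0 ∨ ∃ r : Fin d, e r = false ∧ rad Q e r ≤ (cN M d n : ℝ) * |dot w a| := by
      intro w hw hwb
      refine gap_aux hQ h n (by omega) w hw ?_
      rcases Nat.eq_zero_or_pos n with h0 | h0
      · intro j; rw [hw j (by omega)]; simp
      · intro j
        have : nb M d (n - 1) = 2 * nb M d n * nb M d n := by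
          have := nb_step (M := M) (d := d) (n := n - 1) (by omega)
          rwa [Nat.sub_add_cancel h0] at this
        rw [this]; push_cast; exact hwb j
    by_cases hvs : v s = 0
    · have hw : ∀ j : Fin d, n ≤ (j : ℕ) → v j = 0 := by
        intro j hj
        rcases eq_or_lt_of_le hj with h1 | h1
        · have : j = s := Fin.ext (by simp [hs, h1])
          rw [this, hvs]
        · exact hv j h1
      have hb' : ∀ j, |v j| ≤ 2 * (nb M d n : ℤ) * nb M d n := by
        intro j
        have h1 : (1 : ℤ) ≤ nb M d n := by exact_mod_cast one_le_nb M d n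
        calc |v j| ≤ (nb M d n : ℤ) := hb j
          _ ≤ _ := by nlinarith
      rcases lift v hw hb' with h0 | ⟨r, hr, hle⟩
      · exact Or.inl h0
      · refine Or.inr ⟨r, hr, hle.trans ?_⟩
        rw [hcs]; gcongr; nlinarith
    · have hvec : Vec M s v := ⟨fun j hj => hv j hj, hvs, hb⟩
      cases hes : e s with
      | false =>
        refine Or.inr ⟨s, hes, ?_⟩
        have h1 := adm_false h hes hvec
        have h2 : (1 : ℝ) ≤ |(v s : ℝ)| := by
          have : (1 : ℤ) ≤ |v s| := Int.one_le_abs hvs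
          exact_mod_cast this
        have h3 : rad Q e s ≤ |dot v a| := le_trans (le_mul_of_one_le_left (rad_pos hQ e s).le h2) h1
        refine h3.trans (le_mul_of_one_le_left (abs_nonneg _) ?_)
        exact_mod_cast one_le_cN M d (n + 1)
      | true =>
        obtain ⟨u, hu, hu0⟩ := adm_true h hes
        set w : Fin d → ℤ := fun j => u s * v j - v s * u j with hw
        have hdot : dot w a = (u s : ℝ) * dot v a := by
          have : dot w a = (u s : ℝ) * dot v a - (v s : ℝ) * dot u a := by
            simp only [dot, hw, Finset.mul_sum, ← Finset.sum_sub_distrib]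
            exact Finset.sum_congr rfl (fun j _ => by push_cast; ring)
          rw [this, hu0]; ring
        have hwsupp : ∀ j : Fin d, n ≤ (j : ℕ) → w j = 0 := by
          intro j hj
          rcases eq_or_lt_of_le hj with h1 | h1
          · have : j = s := Fin.ext (by simp [hs, h1])
            simp only [hw, this]; ring
          · simp only [hw]; rw [hv j h1, hu.1 j h1]; ring
        have hwb : ∀ j, |w j| ≤ 2 * (nb M d n : ℤ) * nb M d n := by
          intro j
          have hun : ∀ j, |u j| ≤ (nb M d n : ℤ) := hu.2.2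
          calc |w j| ≤ |u s * v j| + |v s * u j| := abs_sub _ _
            _ = |u s| * |v j| + |v s| * |u j| := by rw [abs_mul, abs_mul]
            _ ≤ (nb M d n : ℤ) * nb M d n + (nb M d n : ℤ) * nb M d n := by
                gcongr
                · exact hun s
                · exact hb j
                · exact hb s
                · exact hun j
            _ = _ := by ring
        rcases lift w hwsupp hwb with h0 | ⟨r, hr, hle⟩
        · left
          rw [hdot] at h0
          rcases mul_eq_zero.mp h0 with h1 | h1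
          · exact absurd (by exact_mod_cast h1) hu.2.1
          · exact h1
        · refine Or.inr ⟨r, hr, hle.trans ?_⟩
          rw [hdot, abs_mul, hcs, mul_assoc]
          have : |(u s : ℝ)| ≤ (nb M d n : ℝ) := by exact_mod_cast hu.2.2 s
          gcongr

/-- A small integer combination of an admissible vector is zero or large. -/
theorem gap {Q : ℝ} (hQ : 1 ≤ Q) {M : ℕ} {e : Fin d → Bool} {a : Fin d → ℝ}
    (h : Adm Q M e a) (v : Fin d → ℤ) (hv : ∀ j, |v j| ≤ (M : ℤ) + 1) :
    dot v a = 0 ∨ ∃ r : Fin d, e r = false ∧ rad Q e r ≤ (cN M d d : ℝ) * |dot v a| :=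
  gap_aux hQ h d le_rfl v (fun j hj => absurd j.isLt (by omega))
    (fun j => (hv j).trans (by exact_mod_cast le_nb M d (d - 1)))

theorem vec_single {M : ℕ} (s : Fin d) : Vec M s (Pi.single s 1) :=
  ⟨fun j hj => Pi.single_eq_of_ne (ne_of_gt hj) _, by simp, fun j => by
    have h1 : (1 : ℤ) ≤ nb M d s := by exact_mod_cast one_le_nb M d s
    by_cases hj : j = s
    · subst hj; simpa using h1
    · simp [Pi.single_eq_of_ne hj]⟩

theorem dot_single (s : Fin d) (a : Fin d → ℝ) : dot (Pi.single s 1) a = a s := by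
  unfold dot
  rw [Finset.sum_eq_single s] <;> simp +contextual [Pi.single_eq_of_ne]

theorem vec_tie {M : ℕ} {r s : Fin d} (hrs : r < s) :
    Vec M s (fun j => if j = s then 1 else if j = r then -1 else 0) := by
  have h1 : (1 : ℤ) ≤ nb M d s := by exact_mod_cast one_le_nb M d s
  refine ⟨fun j hj => ?_, by simp, fun j => ?_⟩
  · simp [ne_of_gt hj, ne_of_gt (hrs.trans hj)]
  · simp only; split_ifs <;> simp <;> omega

theorem dot_tie {r s : Fin d} (hrs : r < s) (a : Fin d → ℝ) :
    dot (fun j => if j = s then (1 : ℤ) else if j = r then -1 else 0) a = a s - a r := by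
  unfold dot
  rw [← Finset.sum_subset (Finset.subset_univ {s, r}), Finset.sum_pair (ne_of_gt hrs)]
  · simp [ne_of_lt hrs]; ring
  · intro j _ hj
    simp only [Finset.mem_insert, Finset.mem_singleton, not_or] at hj
    simp [hj.1, hj.2]

theorem finite_vec (M : ℕ) (s : Fin d) : {v : Fin d → ℤ | Vec M s v}.Finite := by
  refine Set.Finite.subset (Set.Finite.pi' (t := fun _ => Set.Icc (-(nb M d s : ℤ)) (nb M d s))
    (fun _ => Set.finite_Icc _ _)) ?_
  intro v hv j
  exact abs_le.mp (hv.2.2 j)

theorem continuous_dot (v : Fin d → ℤ) : Continuous (dot v) := by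
  unfold dot; fun_prop

theorem isClosed_adm (Q : ℝ) (M : ℕ) (e : Fin d → Bool) :
    IsClosed {a : Fin d → ℝ | Adm Q M e a} := by
  simp only [Adm, Set.ofPred_and, Set.ofPred_forall]
  refine IsClosed.inter ?_ (isClosed_iInter fun s => ?_)
  · simp only [Antitone, Set.ofPred_forall]
    exact isClosed_iInter fun i => isClosed_iInter fun j => isClosed_iInter fun _ =>
      isClosed_le (continuous_apply j) (continuous_apply i)
  · cases e s with
    | true =>
      simp only [if_true]
      have : {a : Fin d → ℝ | ∃ v, Vec M s v ∧ dot v a = 0} =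
          ⋃ v ∈ {v : Fin d → ℤ | Vec M s v}, {a | dot v a = 0} := by ext a; simp
      rw [this]
      exact (finite_vec M s).isClosed_biUnion fun v _ =>
        isClosed_eq (continuous_dot v) continuous_const
    | false =>
      simp only [Bool.false_eq_true, if_false, Set.ofPred_forall]
      exact isClosed_iInter fun v => isClosed_iInter fun _ =>
        isClosed_le continuous_const (continuous_dot v).abs

theorem adm_zero (Q : ℝ) (M : ℕ) : Adm Q M (fun _ : Fin d => true) (fun _ => 0) := by
  refine ⟨fun _ _ _ => le_rfl, fun s => ?_⟩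
  simp only [if_true]
  exact ⟨_, vec_single s, by simp [dot_single]⟩

end Vale.Agent.P072
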