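import Vale.Agent.P072.Flux

/-!
Monotonicity of the Lyapunov function along solutions, invariance and absorption.
-/

namespace Vale.Agent.P072

open MeasureTheory Relation Filter Set

variable {d : ℕ}

/-- Reactions: ordered pairs of complexes. -/
abbrev Net (d : ℕ) := Finset ((Fin d → ℕ) × (Fin d → ℕ))

/-- The mass-action field. -/
noncomputable def field (E : Net d) (k : (Fin d → ℕ) × (Fin d → ℕ) → ℝ) (x : Fin d → ℝ) :
    Fin d → ℝ :=
  ∑ e ∈ E, (k e * ∏ i, x i ^ e.1 i) • fun i => (e.2 i : ℝ) - (e.1 i : ℝ)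

/-- The stoichiometric subspace. -/
noncomputable def stoich (E : Net d) : Submodule ℝ (Fin d → ℝ) :=
  Submodule.span ℝ {v | ∃ e ∈ E, v = fun i => (e.2 i : ℝ) - (e.1 i : ℝ)}

/-- The field at time-dependent rates is the time derivative of `x`, in integral form, on
`[0, T]`. -/
def IsSol (E : Net d) (k : ℝ → (Fin d → ℕ) × (Fin d → ℕ) → ℝ) (x : ℝ → Fin d → ℝ)
    (T : ℝ) : Prop :=
  ContinuousOn x (Icc 0 T) ∧ IntervalIntegrable (fun s => field E (k s) (x s)) volume 0 T ∧
    ∀ t ∈ Icc (0 : ℝ) T, x t = x 0 + ∫ s in (0 : ℝ)..t, field E (k s) (x s)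

/-- Pairing with a real vector, as a continuous linear functional. -/
noncomputable def pair (p : Fin d → ℝ) : (Fin d → ℝ) →L[ℝ] ℝ :=
  ∑ i, p i • ContinuousLinearMap.proj i

theorem pair_apply (p v : Fin d → ℝ) : pair p v = ∑ i, p i * v i := by
  simp [pair]

/-- The ordering function on complexes. -/
noncomputable def lin (p : Fin d → ℝ) (y : Fin d → ℕ) : ℝ := ∑ i, p i * (y i : ℝ)

theorem pair_field (E : Net d) (k : (Fin d → ℕ) × (Fin d → ℕ) → ℝ) {x : Fin d → ℝ}
    (hx : ∀ i, 0 < x i) (p : Fin d → ℝ) :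
    pair p (field E k x) = ∑ e ∈ E, k e * Real.exp (lin (fun i => Real.log (x i)) e.1) *
      (lin p e.2 - lin p e.1) := by
  simp only [field, map_sum, map_smul, smul_eq_mul]
  refine Finset.sum_congr rfl fun e _ => ?_
  have h1 : ∏ i, x i ^ e.1 i = Real.exp (lin (fun i => Real.log (x i)) e.1) := by
    rw [lin, Real.exp_sum]
    refine Finset.prod_congr rfl fun i _ => ?_
    rw [mul_comm, Real.exp_nat_mul, Real.exp_log (hx i)]
  rw [h1, pair_apply]
  unfold lin
  rw [← Finset.sum_sub_distrib]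
  simp only [mul_sub]

/-- Standing hypotheses on the network and the parameters. -/
structure Setup (E : Net d) (M : ℕ) (ε R0 : ℝ) : Prop where
  wr : ∀ e ∈ E, ReflTransGen (fun y y' => (y, y') ∈ E) e.2 e.1
  bdd : ∀ e ∈ E, ∀ i, e.1 i ≤ M ∧ e.2 i ≤ M
  eps : 0 < ε
  card : (E.card : ℝ) * Real.exp (-(R0 - 1)) ≤ ε ^ 2 / 2

theorem lin_diff (p : Fin d → ℝ) (y y' : Fin d → ℕ) :
    lin p y - lin p y' = ∑ i, (((y i : ℤ) - (y' i : ℤ) : ℤ) : ℝ) * p i := by
  rw [lin, lin, ← Finset.sum_sub_distrib]
  exact Finset.sum_congr rfl fun i _ => by push_cast; ring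

theorem sign_lin {M : ℕ} {R0 Q : ℝ} (hb : Big d M R0 Q) {x : Fin d → ℝ} (hx : ∀ i, 0 < x i)
    {y y' : Fin d → ℕ} (hy : ∀ i, y i ≤ M) (hy' : ∀ i, y' i ≤ M)
    (h : lin (grad Q M x) y' < lin (grad Q M x) y) :
    Q ≤ (cN M d d : ℝ) * (lin (grad Q M x) y - lin (grad Q M x) y') ∧
      lin (fun i => Real.log (x i)) y' + R0 ≤ lin (fun i => Real.log (x i)) y := by
  rw [← sub_pos, lin_diff] at h
  have hv : ∀ i, |(y i : ℤ) - (y' i : ℤ)| ≤ (M : ℤ) := fun i => by
    have := hy i; have := hy' i
    rw [abs_le]; constructor <;> omega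
  obtain ⟨h1, h2⟩ := sign_property hb hx hv h
  rw [← lin_diff] at h1
  refine ⟨h1, ?_⟩
  rw [← lin_diff] at h2
  linarith

/-- The rate of decrease inside a box of logarithmic radius `B`. -/
noncomputable def rate (d M : ℕ) (ε Q B : ℝ) : ℝ :=
  ε / 2 * (Real.exp (-(d * M * B)) * (Q / (cN M d d : ℝ)))

/-- Monotonicity of the Lyapunov function along a positive solution. -/
theorem mono_along {E : Net d} {M : ℕ} {ε R0 Q : ℝ} (hs : Setup E M ε R0) (hb : Big d M R0 Q)
    {k : ℝ → (Fin d → ℕ) × (Fin d → ℕ) → ℝ}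
    (hk : ∀ t, ∀ e ∈ E, ε ≤ k t e ∧ k t e ≤ 1 / ε) {x : ℝ → Fin d → ℝ} {T : ℝ}
    (hx : IsSol E k x T) {a b : ℝ} (ha : 0 ≤ a) (hab : a ≤ b) (hbT : b ≤ T)
    (hpos : ∀ t ∈ Icc a b, ∀ i, 0 < x t i) {δ : ℝ}
    (hδ : δ = 0 ∨ ∃ B, δ = rate d M ε Q B ∧ (∀ t ∈ Icc a b, ∀ i, |Real.log (x t i)| ≤ B) ∧
      ∀ t ∈ Icc a b, ∃ e ∈ E, lin (grad Q M (x t)) e.1 ≠ lin (grad Q M (x t)) e.2) :
    phi Q M (x b) + δ * b ≤ phi Q M (x a) + δ * a := by
  obtain ⟨hxc, hxi, hxe⟩ := hx
  have hsub : Icc a b ⊆ Icc 0 T := Icc_subset_Icc ha hbT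
  have hcont : ContinuousOn (fun t => phi Q M (x t) + δ * t) (Icc a b) := by
    refine ContinuousOn.add (fun t ht => ?_) (by fun_prop)
    exact (continuousAt_phi hb (hpos t ht)).comp_continuousWithinAt
      ((hxc t (hsub ht)).mono hsub)
  have hint : ∀ u ∈ Icc (0 : ℝ) T, ∀ w ∈ Icc (0 : ℝ) T,
      IntervalIntegrable (fun s => field E (k s) (x s)) volume u w := by
    intro u hu w hw
    refine hxi.mono_set ?_
    rw [uIcc_of_le (hu.1.trans hu.2)]
    exact uIcc_subset_Icc hu hw
  -- left difference quotients are nonpositive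
  have hstep : ∀ t ∈ Ioc a b, ∀ᶠ τ in nhdsWithin t (Iio t),
      phi Q M (x t) + δ * t ≤ phi Q M (x τ) + δ * τ := by
    intro t ht
    have htI : t ∈ Icc a b := Ioc_subset_Icc_self ht
    set p := grad Q M (x t) with hp
    have hcl : ContinuousWithinAt x (Icc a t) t :=
      (hxc t (hsub htI)).mono ((Icc_subset_Icc le_rfl ht.2).trans hsub)
    have hgap : ∀ᶠ s in nhdsWithin t (Icc a t), ∀ e ∈ E, ∀ f ∈ E, lin p e.1 < lin p f.1 →
        lin (fun i => Real.log (x s i)) e.1 + (R0 - 1) ≤ lin (fun i => Real.log (x s i)) f.1 := by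
      refine (eventually_all_finset E).mpr fun e he => (eventually_all_finset E).mpr fun f hf => ?_
      by_cases hlt : lin p e.1 < lin p f.1
      · obtain ⟨-, h2⟩ := sign_lin hb (hpos t htI) (fun i => (hs.bdd f hf i).1)
          (fun i => (hs.bdd e he i).1) hlt
        have hc : ContinuousWithinAt (fun s => lin (fun i => Real.log (x s i)) f.1 -
            lin (fun i => Real.log (x s i)) e.1) (Icc a t) t := by
          have hc0 : ContinuousAt (fun z : Fin d → ℝ => lin (fun i => Real.log (z i)) f.1 -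
              lin (fun i => Real.log (z i)) e.1) (x t) := by
            have h0 : ∀ i, x t i ≠ 0 := fun i => (hpos t htI i).ne'
            have hl : ∀ i, ContinuousAt (fun z : Fin d → ℝ => Real.log (z i)) (x t) := fun i =>
              (continuous_apply i).continuousAt.log (h0 i)
            unfold lin
            refine ContinuousAt.sub ?_ ?_ <;>
              exact tendsto_finsetSum _ fun i _ => (hl i).mul continuousAt_const
          exact hc0.comp_continuousWithinAt hcl
        have := hc.eventually (Ioi_mem_nhds (show R0 - 1 < _ by linarith [h2]))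
        filter_upwards [this] with s hs' _
        linarith
      · exact Eventually.of_forall fun s h => absurd h hlt
    rw [nhdsWithin_Icc_eq_nhdsLE ht.1] at hgap
    obtain ⟨l, hl, hlsub⟩ := (mem_nhdsLE_iff_exists_Icc_subset).mp hgap
    filter_upwards [Ioo_mem_nhdsLT (max_lt ht.1 hl)] with τ hτ
    have hτa : a ≤ τ := (le_max_left _ _).trans hτ.1.le
    have hτI : τ ∈ Icc a b := ⟨hτa, hτ.2.le.trans ht.2⟩
    have h1 := phi_subgrad (Q := Q) (M := M) (hpos t htI) (hpos τ hτI)
    have h2 : x t - x τ = ∫ s in τ..t, field E (k s) (x s) := by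
      rw [hxe t (hsub htI), hxe τ (hsub hτI), add_sub_add_left_eq_sub]
      have h0 : (0 : ℝ) ∈ Icc (0 : ℝ) T := ⟨le_rfl, by linarith⟩
      exact intervalIntegral.integral_interval_sub_left
        (hint 0 h0 t (hsub htI)) (hint 0 h0 τ (hsub hτI))
    have h3 : ∑ j, p j * (x τ j - x t j) = -∫ s in τ..t, pair p (field E (k s) (x s)) := by
      rw [ContinuousLinearMap.intervalIntegral_comp_comm _ (hint τ (hsub hτI) t (hsub htI)),
        ← h2, pair_apply, ← Finset.sum_neg_distrib]
      exact Finset.sum_congr rfl fun j _ => by simp only [Pi.sub_apply]; ring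
    have h4 : ∫ s in τ..t, pair p (field E (k s) (x s)) ≤ ∫ _s in τ..t, -δ := by
      refine intervalIntegral.integral_mono_on hτ.2.le ?_ intervalIntegrable_const ?_
      · exact ⟨(pair p).integrable_comp (hint τ (hsub hτI) t (hsub htI)).1,
          (pair p).integrable_comp (hint τ (hsub hτI) t (hsub htI)).2⟩
      intro s hsI
      have hsab : s ∈ Icc a b := ⟨hτa.trans hsI.1, hsI.2.trans ht.2⟩
      have hs' := hlsub ⟨((le_max_right _ _).trans hτ.1.le).trans hsI.1, hsI.2⟩
      rw [pair_field E (k s) (hpos s hsab) p]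
      refine (flux_le E hs.wr (lin p) (lin fun i => Real.log (x s i)) hs.eps (hk s) hs.card
        hs').trans ?_
      have hnn : ∀ e ∈ E, 0 ≤ Real.exp (lin (fun i => Real.log (x s i)) e.1) *
          max (lin p e.1 - lin p e.2) 0 := fun e _ => by positivity
      rcases hδ with h0 | ⟨B, hB, hBox, hne⟩
      · rw [h0]
        have := Finset.sum_nonneg hnn
        have := hs.eps
        nlinarith
      · obtain ⟨e, he, hne'⟩ := hne t htI
        obtain ⟨f, hf, hfall⟩ := exists_fall E hs.wr (lin p) he hne'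
        obtain ⟨hdrop, -⟩ := sign_lin hb (hpos t htI) (fun i => (hs.bdd f hf i).1)
          (fun i => (hs.bdd f hf i).2) hfall
        rw [← hp] at hdrop
        have hC : (0 : ℝ) < cN M d d := by exact_mod_cast one_le_cN M d d
        have hQ := hb.one_le
        have he1 : Real.exp (-(d * M * B)) * (Q / (cN M d d : ℝ)) ≤
            Real.exp (lin (fun i => Real.log (x s i)) f.1) * max (lin p f.1 - lin p f.2) 0 := by
          refine mul_le_mul ?_ ?_ (by positivity) (Real.exp_pos _).le
          · refine Real.exp_le_exp.mpr ?_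
            have hsum : ∀ i ∈ Finset.univ, -(M * B) ≤ Real.log (x s i) * (f.1 i : ℝ) := by
              intro i _
              have h5 := abs_le.mp (hBox s hsab i)
              have hB0 : 0 ≤ B := (abs_nonneg _).trans (hBox s hsab i)
              have h6 : (f.1 i : ℝ) ≤ M := by exact_mod_cast (hs.bdd f hf i).1
              have h7 : (0 : ℝ) ≤ f.1 i := Nat.cast_nonneg _
              nlinarith
            refine le_trans (le_of_eq ?_) (Finset.sum_le_sum hsum)
            simp; ring
          · refine le_max_of_le_left ?_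
            rw [div_le_iff₀ hC]; linarith
        have h8 := Finset.single_le_sum hnn hf
        have := hs.eps
        rw [hB, rate]
        nlinarith
    rw [intervalIntegral.integral_const, smul_eq_mul] at h4
    rw [← hp, h3] at h1
    linarith
  -- reverse time and apply the one-sided comparison principle
  have hg : ContinuousOn (fun s => -(phi Q M (x (-s)) + δ * (-s))) (Icc (-b) (-a)) :=
    (hcont.comp continuousOn_neg (fun s hs => ⟨by linarith [hs.2], by linarith [hs.1]⟩)).neg
  have hcmp := image_le_of_liminf_slope_right_le_deriv_boundary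
    (f := fun s => -(phi Q M (x (-s)) + δ * (-s))) (a := -b) (b := -a) hg
    (B := fun _ => -(phi Q M (x b) + δ * b)) (B' := fun _ => 0)
    (by simp) continuousOn_const (fun _ _ => hasDerivWithinAt_const ..)
    (fun s hsI r hr => ?_) (right_mem_Icc.mpr (by linarith))
  · simp only [neg_neg] at hcmp; linarith
  · refine Eventually.frequently ?_
    have hto : Tendsto (fun z : ℝ => -z) (nhdsWithin s (Ioi s)) (nhdsWithin (-s) (Iio (-s))) :=
      tendsto_nhdsWithin_of_tendsto_nhds_of_eventually_within _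
        ((continuous_neg.tendsto s).mono_left nhdsWithin_le_nhds)
        (eventually_nhdsWithin_of_forall fun z (hz : s < z) => neg_lt_neg hz)
    filter_upwards [hto.eventually (hstep (-s) ⟨by linarith [hsI.2], by linarith [hsI.1]⟩),
      self_mem_nhdsWithin] with z hz (hz' : s < z)
    rw [slope_def_field]
    refine lt_of_le_of_lt (div_nonpos_of_nonpos_of_nonneg ?_ (by linarith)) hr
    linarith

end Vale.Agent.P072
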