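import Vale.Agent.P072.Sign

/-!
The flux inequality for weakly reversible networks: if an ordering of the complexes is compatible
with large gaps of `log x`, the flux along that ordering is negative.
-/

namespace Vale.Agent.P072

open MeasureTheory Relation

/-- Along a directed path from above a threshold to below it, some edge crosses the threshold. -/
theorem crossing {V : Type*} (E : Finset (V × V)) (P : V → ℝ) {θ : ℝ} {a b : V}
    (h : ReflTransGen (fun u w => (u, w) ∈ E) a b) (ha : θ ≤ P a) (hb : P b < θ) :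
    ∃ e ∈ E, θ ≤ P e.1 ∧ P e.2 < θ := by
  induction h with
  | refl => exact absurd hb (not_lt.mpr ha)
  | tail hab hbc ih =>
    rename_i u w
    by_cases hu : P u < θ
    · exact ih hu
    · exact ⟨(u, w), hbc, not_lt.mp hu, hb⟩

/-- A rise along an edge is covered by the falls from higher sources. -/
theorem rise_le_falls {V : Type*} [DecidableEq V] (E : Finset (V × V)) (P : V → ℝ) {e : V × V}
    (h : ReflTransGen (fun u w => (u, w) ∈ E) e.2 e.1) :
    P e.2 - P e.1 ≤
      ∑ f ∈ E.filter (fun f => P e.1 < P f.1), max (P f.1 - P f.2) 0 := by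
  classical
  rcases le_or_gt (P e.2) (P e.1) with hle | hlt
  · have : 0 ≤ ∑ f ∈ E.filter (fun f => P e.1 < P f.1), max (P f.1 - P f.2) 0 :=
      Finset.sum_nonneg fun f _ => le_max_right _ _
    linarith
  set F := E.filter (fun f => P e.1 < P f.1) with hF
  have hcover : Set.Ioc (P e.1) (P e.2) ⊆ ⋃ f ∈ F, Set.Ioc (P f.2) (P f.1) := by
    intro θ hθ
    obtain ⟨f, hf, h1, h2⟩ := crossing E P h hθ.2 hθ.1
    simp only [Set.mem_iUnion, hF, Finset.mem_filter]
    exact ⟨f, ⟨hf, lt_of_lt_of_le hθ.1 h1⟩, h2, h1⟩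
  have hm : volume (Set.Ioc (P e.1) (P e.2)) ≤ ∑ f ∈ F, volume (Set.Ioc (P f.2) (P f.1)) :=
    (measure_mono hcover).trans (measure_biUnion_finset_le _ _)
  simp only [Real.volume_Ioc] at hm
  have hm2 : ENNReal.ofReal (P e.2 - P e.1) ≤
      ENNReal.ofReal (∑ f ∈ F, max (P f.1 - P f.2) 0) := by
    refine hm.trans ?_
    rw [ENNReal.ofReal_sum_of_nonneg fun f _ => le_max_right _ _]
    exact Finset.sum_le_sum fun f _ => ENNReal.ofReal_le_ofReal (le_max_left _ _)
  exact (ENNReal.ofReal_le_ofReal_iff (Finset.sum_nonneg fun f _ => le_max_right _ _)).mp hm2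

/-- The flux inequality. -/
theorem flux_le {V : Type*} [DecidableEq V] (E : Finset (V × V))
    (hwr : ∀ e ∈ E, ReflTransGen (fun u w => (u, w) ∈ E) e.2 e.1)
    (P W : V → ℝ) {k : V × V → ℝ} {ε R : ℝ} (hε : 0 < ε)
    (hk : ∀ e ∈ E, ε ≤ k e ∧ k e ≤ 1 / ε) (hR : (E.card : ℝ) * Real.exp (-R) ≤ ε ^ 2 / 2)
    (hgap : ∀ e ∈ E, ∀ f ∈ E, P e.1 < P f.1 → W e.1 + R ≤ W f.1) :
    ∑ e ∈ E, k e * Real.exp (W e.1) * (P e.2 - P e.1) ≤
      -(ε / 2) * ∑ e ∈ E, Real.exp (W e.1) * max (P e.1 - P e.2) 0 := by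
  set Neg := ∑ e ∈ E, Real.exp (W e.1) * max (P e.1 - P e.2) 0 with hNeg
  have hNeg0 : 0 ≤ Neg := Finset.sum_nonneg fun e _ => by positivity
  have hterm : ∀ e ∈ E, k e * Real.exp (W e.1) * (P e.2 - P e.1) ≤
      1 / ε * (Real.exp (-R) * Neg) - ε * (Real.exp (W e.1) * max (P e.1 - P e.2) 0) := by
    intro e he
    obtain ⟨hk1, hk2⟩ := hk e he
    have hk0 : 0 ≤ k e := hε.le.trans hk1
    rcases le_or_gt (P e.2) (P e.1) with hle | hlt
    · rw [max_eq_left (by linarith)]
      have : ε * (Real.exp (W e.1) * (P e.1 - P e.2)) ≤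
          k e * (Real.exp (W e.1) * (P e.1 - P e.2)) :=
        mul_le_mul_of_nonneg_right hk1 (mul_nonneg (Real.exp_pos _).le (by linarith))
      have : 0 ≤ 1 / ε * (Real.exp (-R) * Neg) := by positivity
      linarith
    · rw [max_eq_right (by linarith), mul_zero, mul_zero, sub_zero, mul_assoc]
      refine mul_le_mul hk2 ?_ (mul_nonneg (Real.exp_pos _).le (by linarith)) (by positivity)
      calc Real.exp (W e.1) * (P e.2 - P e.1)
          ≤ Real.exp (W e.1) * ∑ f ∈ E.filter (fun f => P e.1 < P f.1), max (P f.1 - P f.2) 0 :=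
            mul_le_mul_of_nonneg_left (rise_le_falls E P (hwr e he)) (Real.exp_pos _).le
        _ = ∑ f ∈ E.filter (fun f => P e.1 < P f.1),
              Real.exp (W e.1) * max (P f.1 - P f.2) 0 := by rw [Finset.mul_sum]
        _ ≤ ∑ f ∈ E.filter (fun f => P e.1 < P f.1),
              Real.exp (-R) * (Real.exp (W f.1) * max (P f.1 - P f.2) 0) := by
            refine Finset.sum_le_sum fun f hf => ?_
            rw [Finset.mem_filter] at hf
            rw [← mul_assoc, ← Real.exp_add]
            gcongr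
            linarith [hgap e he f hf.1 hf.2]
        _ ≤ Real.exp (-R) * Neg := by
            rw [← Finset.mul_sum]
            gcongr
            exact Finset.sum_le_sum_of_subset_of_nonneg (Finset.filter_subset _ _)
              (fun f _ _ => by positivity)
  refine (Finset.sum_le_sum hterm).trans ?_
  rw [Finset.sum_sub_distrib, Finset.sum_const, nsmul_eq_mul, ← Finset.mul_sum]
  have h1 : (E.card : ℝ) * (1 / ε * (Real.exp (-R) * Neg)) ≤ ε / 2 * Neg := by
    have : (E.card : ℝ) * (1 / ε * (Real.exp (-R) * Neg)) =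
        (E.card * Real.exp (-R)) / ε * Neg := by ring
    rw [this]
    refine mul_le_mul_of_nonneg_right ?_ hNeg0
    rw [div_le_iff₀ hε]; nlinarith
  rw [← hNeg]; linarith

/-- If some edge changes the ordering function, some edge falls. -/
theorem exists_fall {V : Type*} (E : Finset (V × V))
    (hwr : ∀ e ∈ E, ReflTransGen (fun u w => (u, w) ∈ E) e.2 e.1) (P : V → ℝ) {e : V × V}
    (he : e ∈ E) (hne : P e.1 ≠ P e.2) : ∃ f ∈ E, P f.2 < P f.1 := by
  rcases lt_or_gt_of_ne hne with h | h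
  · obtain ⟨f, hf, h1, h2⟩ := crossing E P (hwr e he) le_rfl h
    exact ⟨f, hf, lt_of_lt_of_le h2 h1⟩
  · exact ⟨e, he, h⟩

end Vale.Agent.P072
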