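import Vale.Agent.P072.Dynamics

/-!
Invariance of sublevel sets, absorption, global existence and uniqueness.
-/

namespace Vale.Agent.P072

open MeasureTheory Relation Filter Set
open scoped NNReal

variable {d : ℕ}

/-- A compact sublevel set inside the open orthant. -/
def Kset (d : ℕ) (Q : ℝ) (M : ℕ) : Set (Fin d → ℝ) :=
  Icc (fun _ => lo d Q) (fun _ => hi d Q) ∩ {z | phi Q M z ≤ level d Q}

theorem pos_of_box {Q : ℝ} (hQ : 1 ≤ Q) {z : Fin d → ℝ}
    (hz : z ∈ Icc (fun _ => lo d Q) (fun _ : Fin d => hi d Q)) (i : Fin d) : 0 < z i :=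
  (lo_pos hQ).trans_le (hz.1 i)

theorem isCompact_Kset {M : ℕ} {R0 Q : ℝ} (hb : Big d M R0 Q) : IsCompact (Kset d Q M) := by
  have hc : ContinuousOn (phi Q M) (Icc (fun _ => lo d Q) (fun _ : Fin d => hi d Q)) := fun z hz =>
    (continuousAt_phi hb (pos_of_box hb.one_le hz)).continuousWithinAt
  exact isCompact_Icc.of_isClosed_subset (hc.preimage_isClosed_of_isClosed isClosed_Icc isClosed_Iic)
    inter_subset_left

theorem mem_Kset {M : ℕ} {Q : ℝ} (hQ : 1 ≤ Q) {z : Fin d → ℝ} (hz : ∀ i, 0 < z i)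
    (h : phi Q M z ≤ level d Q) : z ∈ Kset d Q M :=
  ⟨⟨fun i => (sublevel_box hQ hz h i).1, fun i => (sublevel_box hQ hz h i).2⟩, h⟩

theorem invariant {E : Net d} {M : ℕ} {ε R0 Q : ℝ} (hs : Setup E M ε R0) (hb : Big d M R0 Q)
    {k : ℝ → (Fin d → ℕ) × (Fin d → ℕ) → ℝ}
    (hk : ∀ t, ∀ e ∈ E, ε ≤ k t e ∧ k t e ≤ 1 / ε) {x : ℝ → Fin d → ℝ} {T : ℝ}
    (hx : IsSol E k x T) (h0 : x 0 ∈ Kset d Q M) : ∀ t ∈ Icc (0 : ℝ) T, x t ∈ Kset d Q M := by
  have hclosed : IsClosed ({t | x t ∈ Kset d Q M} ∩ Icc 0 T) := by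
    rw [inter_comm]
    exact hx.1.preimage_isClosed_of_isClosed isClosed_Icc (isCompact_Kset hb).isClosed
  refine hclosed.Icc_subset_of_forall_mem_nhdsWithin h0 fun t ⟨htK, ht⟩ => ?_
  have hpos : ∀ i, 0 < x t i := pos_of_box hb.one_le htK.1
  have hopen : IsOpen {z : Fin d → ℝ | ∀ i, 0 < z i} := by
    simp only [Set.ofPred_forall]
    exact isOpen_iInter_of_finite fun i => isOpen_lt continuous_const (continuous_apply i)
  have hnear : ∀ᶠ s in nhdsWithin t (Icc t T), ∀ i, 0 < x s i :=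
    ((hx.1 t (Ico_subset_Icc_self ht)).mono (Icc_subset_Icc_left ht.1)).eventually
      (hopen.mem_nhds hpos)
  rw [nhdsWithin_Icc_eq_nhdsGE ht.2] at hnear
  obtain ⟨u, hu, husub⟩ := mem_nhdsGE_iff_exists_Icc_subset.mp hnear
  filter_upwards [Ioo_mem_nhdsGT (lt_min hu ht.2)] with s hsI
  have hsu : Icc t s ⊆ Icc t u := Icc_subset_Icc_right (hsI.2.le.trans (min_le_left _ _))
  have hsT : s ≤ T := hsI.2.le.trans (min_le_right _ _)
  have hp : ∀ τ ∈ Icc t s, ∀ i, 0 < x τ i := fun τ hτ => husub (hsu hτ)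
  have hm := mono_along hs hb hk hx ht.1 hsI.1.le hsT hp (δ := 0) (Or.inl rfl)
  simp only [zero_mul, add_zero] at hm
  exact mem_Kset hb.one_le (hp s (right_mem_Icc.mpr hsI.1.le)) (hm.trans htK.2)

/-- Solutions stay in their stoichiometric class. -/
theorem sub_mem_stoich {E : Net d} {k : ℝ → (Fin d → ℕ) × (Fin d → ℕ) → ℝ} {x : ℝ → Fin d → ℝ}
    {T : ℝ} (hx : IsSol E k x T) {c : Fin d → ℝ} (h0 : x 0 - c ∈ stoich E) :
    ∀ t ∈ Icc (0 : ℝ) T, x t - c ∈ stoich E := by
  intro t ht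
  obtain ⟨-, hxi, hxe⟩ := hx
  have hint : IntervalIntegrable (fun s => field E (k s) (x s)) volume 0 t :=
    hxi.mono_set (by
      rw [uIcc_of_le (ht.1.trans ht.2)]
      exact uIcc_subset_Icc ⟨le_rfl, ht.1.trans ht.2⟩ ht)
  have hmem : (∫ s in (0 : ℝ)..t, field E (k s) (x s)) ∈ stoich E := by
    rw [← Subspace.forall_mem_dualAnnihilator_apply_eq_zero_iff]
    intro ψ hψ
    have hz : ∀ s, LinearMap.toContinuousLinearMap ψ (field E (k s) (x s)) = 0 := fun s => by
      rw [LinearMap.coe_toContinuousLinearMap']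
      simp only [field, map_sum, map_smul, smul_eq_mul]
      refine Finset.sum_eq_zero fun e he => ?_
      rw [(Submodule.mem_dualAnnihilator ψ).mp hψ _ (Submodule.subset_span ⟨e, he, rfl⟩), mul_zero]
    have := (LinearMap.toContinuousLinearMap ψ).intervalIntegral_comp_comm hint
    simp only [hz, intervalIntegral.integral_zero] at this
    simpa using this.symm
  rw [hxe t ht, show x 0 + (∫ s in (0 : ℝ)..t, field E (k s) (x s)) - c =
    (x 0 - c) + ∫ s in (0 : ℝ)..t, field E (k s) (x s) by abel]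
  exact add_mem h0 hmem

/-- A uniform absorbing compact set in a stoichiometric class. -/
theorem absorbing {E : Net d} {M : ℕ} {ε R0 : ℝ} (hs : Setup E M ε R0) {c : Fin d → ℝ}
    (hc : ∀ i, 0 < c i) :
    ∃ K : Set (Fin d → ℝ), IsCompact K ∧ K ⊆ {z | (∀ i, 0 < z i) ∧ z - c ∈ stoich E} ∧
      ∀ k : ℝ → (Fin d → ℕ) × (Fin d → ℕ) → ℝ,
        (∀ t, ∀ e ∈ E, ε ≤ k t e ∧ k t e ≤ 1 / ε) →
        ∀ x : ℝ → Fin d → ℝ, (∀ i, 0 < x 0 i) → x 0 - c ∈ stoich E →
        (∀ T, 0 ≤ T → IsSol E k x T) →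
        (∀ t, 0 ≤ t → (∀ i, 0 < x t i) ∧ x t - c ∈ stoich E) ∧ ∃ T, ∀ t, T ≤ t → x t ∈ K := by
  obtain ⟨Q, hb, hBQ⟩ := (eventually_big d M R0 (∑ i, |Real.log (c i)|)).exists
  have hcl : ∀ i, |Real.log (c i)| ≤ ∑ j, |Real.log (c j)| := fun i =>
    Finset.single_le_sum (f := fun j => |Real.log (c j)|) (fun j _ => abs_nonneg _)
      (Finset.mem_univ i)
  have hcore := phi_core hb hc hcl hBQ
  have hScl : IsClosed {z : Fin d → ℝ | z - c ∈ stoich E} :=
    (stoich E).closed_of_finiteDimensional.preimage (by fun_prop : Continuous fun z => z - c)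
  refine ⟨Kset d Q M ∩ {z | z - c ∈ stoich E}, (isCompact_Kset hb).inter_right hScl,
    fun z hz => ⟨pos_of_box hb.one_le hz.1.1, hz.2⟩, ?_⟩
  intro k hk x hx0 hxc hsol
  obtain ⟨Q', hb', hBQ'⟩ := (eventually_big d M R0 (∑ i, |Real.log (x 0 i)|)).exists
  have hxl : ∀ i, |Real.log (x 0 i)| ≤ ∑ j, |Real.log (x 0 j)| := fun i =>
    Finset.single_le_sum (f := fun j => |Real.log (x 0 j)|) (fun j _ => abs_nonneg _)
      (Finset.mem_univ i)
  have h0K : x 0 ∈ Kset d Q' M := by
    refine mem_Kset hb'.one_le hx0 ?_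
    rw [phi_core hb' hx0 hxl hBQ']
    have := Real.exp_pos (-Q' ^ (2 ^ d))
    unfold level; linarith
  have hbox : ∀ t, 0 ≤ t → x t ∈ Kset d Q' M := fun t ht =>
    invariant hs hb' hk (hsol t ht) h0K t ⟨ht, le_rfl⟩
  have hpos : ∀ t, 0 ≤ t → ∀ i, 0 < x t i := fun t ht => pos_of_box hb'.one_le (hbox t ht).1
  have hclass : ∀ t, 0 ≤ t → x t - c ∈ stoich E := fun t ht =>
    sub_mem_stoich (hsol t ht) hxc t ⟨ht, le_rfl⟩
  refine ⟨fun t ht => ⟨hpos t ht, hclass t ht⟩, ?_⟩
  set B : ℝ := |Real.log (lo d Q')| + |Real.log (hi d Q')| with hB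
  have hBbox : ∀ t, 0 ≤ t → ∀ i, |Real.log (x t i)| ≤ B := by
    intro t ht i
    have h1 := (hbox t ht).1
    have h2 := Real.log_le_log (lo_pos hb'.one_le) (h1.1 i)
    have h3 := Real.log_le_log (hpos t ht i) (h1.2 i)
    have h4 := neg_abs_le (Real.log (lo d Q'))
    have h5 := le_abs_self (Real.log (hi d Q'))
    have h6 := abs_nonneg (Real.log (lo d Q'))
    have h7 := abs_nonneg (Real.log (hi d Q'))
    rw [abs_le]; constructor <;> linarith
  set δ := rate d M ε Q B with hδ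
  have hδpos : 0 < δ := by
    have := hs.eps
    have := hb.one_le
    have : (0 : ℝ) < cN M d d := by exact_mod_cast one_le_cN M d d
    rw [hδ, rate]; positivity
  set T := |phi Q M (x 0) - level d Q| / δ + 1 with hT
  have hT0 : 0 ≤ T := by rw [hT]; positivity
  have hexists : ∃ t ∈ Icc (0 : ℝ) T, phi Q M (x t) ≤ level d Q := by
    by_contra hno
    push Not at hno
    have hne : ∀ t ∈ Icc (0 : ℝ) T,
        ∃ e ∈ E, lin (grad Q M (x t)) e.1 ≠ lin (grad Q M (x t)) e.2 := by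
      intro t ht
      by_contra hall
      push Not at hall
      have hzero : ∀ w ∈ stoich E, pair (grad Q M (x t)) w = 0 := by
        intro w hw
        induction hw using Submodule.span_induction with
        | mem v hv =>
          obtain ⟨e, he, rfl⟩ := hv
          rw [pair_apply]
          have := hall e he
          simp only [lin] at this
          simp only [mul_sub, Finset.sum_sub_distrib, this, sub_self]
        | zero => simp
        | add u v _ _ hu hv => rw [map_add, hu, hv, add_zero]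
        | smul a v _ hv => rw [map_smul, hv, smul_zero]
      have hmem : c - x t ∈ stoich E := by
        have := neg_mem (hclass t ht.1)
        rwa [neg_sub] at this
      have h1 := phi_subgrad (Q := Q) (M := M) (hpos t ht.1) hc
      have h2 : ∑ j, grad Q M (x t) j * (c j - x t j) = 0 := by
        have := hzero _ hmem
        rw [pair_apply] at this
        exact this
      rw [h2, add_zero, hcore] at h1
      have := hno t ht
      have := Real.exp_pos (-Q ^ (2 ^ d))
      unfold level at *; linarith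
    have hm := mono_along hs hb hk (hsol T hT0) le_rfl hT0 le_rfl (fun t ht => hpos t ht.1)
      (δ := δ) (Or.inr ⟨B, hδ, fun t ht => hBbox t ht.1, hne⟩)
    have h1 := hno T ⟨hT0, le_rfl⟩
    have h2 := le_abs_self (phi Q M (x 0) - level d Q)
    have h3 : δ * T = |phi Q M (x 0) - level d Q| + δ := by rw [hT]; field_simp
    linarith
  obtain ⟨t₁, ht₁, hle⟩ := hexists
  refine ⟨T, fun t ht => ?_⟩
  have ht0 : 0 ≤ t := hT0.trans ht
  have h1t : t₁ ≤ t := ht₁.2.trans ht
  have hm := mono_along hs hb hk (hsol t ht0) ht₁.1 h1t le_rfl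
    (fun s hs' => hpos s (ht₁.1.trans hs'.1)) (δ := 0) (Or.inl rfl)
  simp only [zero_mul, add_zero] at hm
  exact ⟨mem_Kset hb.one_le (hpos t ht0) (hm.trans hle), hclass t ht0⟩

theorem contDiff_field (E : Net d) (k : (Fin d → ℕ) × (Fin d → ℕ) → ℝ) :
    ContDiff ℝ 1 (field E k) := by
  unfold field; fun_prop

/-- A classical solution solves the integral equation. -/
theorem isSol_of_deriv {E : Net d} {k : (Fin d → ℕ) × (Fin d → ℕ) → ℝ} {y : ℝ → Fin d → ℝ}
    {T : ℝ} (hT : 0 ≤ T)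
    (hy : ∀ t ∈ Icc (0 : ℝ) T, HasDerivWithinAt y (field E k (y t)) (Icc 0 T) t) :
    IsSol E (fun _ => k) y T := by
  have hc : ContinuousOn y (Icc 0 T) := fun t ht => (hy t ht).continuousWithinAt
  have hfc : ContinuousOn (fun s => field E k (y s)) (Icc 0 T) :=
    (contDiff_field E k).continuous.comp_continuousOn hc
  refine ⟨hc, hfc.intervalIntegrable_of_Icc hT, fun t ht => ?_⟩
  have hsub : Icc 0 t ⊆ Icc (0 : ℝ) T := Icc_subset_Icc le_rfl ht.2
  have h := intervalIntegral.integral_eq_sub_of_hasDerivAt_of_le ht.1 (hc.mono hsub)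
    (fun s hs => (hy s (hsub (Ioo_subset_Icc_self hs))).hasDerivAt
      (Icc_mem_nhds hs.1 (hs.2.trans_le ht.2)))
    ((hfc.mono hsub).intervalIntegrable_of_Icc ht.1)
  rw [h]; abel

/-- Global existence and uniqueness. -/
theorem exists_unique {E : Net d} {M : ℕ} {ε R0 : ℝ} (hs : Setup E M ε R0)
    {k : (Fin d → ℕ) × (Fin d → ℕ) → ℝ} (hk : ∀ e ∈ E, ε ≤ k e ∧ k e ≤ 1 / ε)
    {x₀ : Fin d → ℝ} (hx₀ : ∀ i, 0 < x₀ i) :
    ∃ x : ℝ → Fin d → ℝ, x 0 = x₀ ∧
      (∀ t, 0 ≤ t → HasDerivWithinAt x (field E k (x t)) (Ici 0) t) ∧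
      (∀ T, 0 ≤ T → IsSol E (fun _ => k) x T) ∧
      ∀ (T : ℝ) (y : ℝ → Fin d → ℝ), y 0 = x₀ →
        (∀ t ∈ Icc (0 : ℝ) T, HasDerivWithinAt y (field E k (y t)) (Icc 0 T) t) →
        ∀ t ∈ Icc (0 : ℝ) T, y t = x t := by
  classical
  obtain ⟨Q, hb, hBQ⟩ := (eventually_big d M R0 (∑ i, |Real.log (x₀ i)|)).exists
  have hxl : ∀ i, |Real.log (x₀ i)| ≤ ∑ j, |Real.log (x₀ j)| := fun i =>
    Finset.single_le_sum (f := fun j => |Real.log (x₀ j)|) (fun j _ => abs_nonneg _)
      (Finset.mem_univ i)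
  have h0 : x₀ ∈ Kset d Q M := by
    refine mem_Kset hb.one_le hx₀ ?_
    rw [phi_core hb hx₀ hxl hBQ]
    have := Real.exp_pos (-Q ^ (2 ^ d))
    unfold level; linarith
  set a : ℝ := lo d Q / 2 with ha
  set b : ℝ := hi d Q + 1 with hbdef
  have hlo := lo_pos (d := d) hb.one_le
  have hab : a ≤ b := by
    rcases Nat.eq_zero_or_pos d with hd | hd
    · subst hd
      have hQ := hb.one_le
      have h1 : Real.exp (-Q ^ (2 ^ 0)) ≤ 1 :=
        Real.exp_le_one_iff.mpr (by simp only [pow_zero, pow_one]; linarith)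
      have h2 : lo 0 Q ≤ 1 := by
        rw [lo]
        refine div_le_one_of_le₀ ?_ (by positivity)
        simp only [pow_zero, pow_one] at h1 ⊢
        linarith
      rw [ha, hbdef, hi]
      simp only [Nat.cast_zero, zero_mul, add_zero]
      linarith
    · have := h0.1.1 ⟨0, hd⟩
      have := h0.1.2 ⟨0, hd⟩
      rw [ha, hbdef]; linarith
  set Box : Set (Fin d → ℝ) := Icc (fun _ => a) (fun _ => b) with hBox
  set clamp : (Fin d → ℝ) → (Fin d → ℝ) := fun z i => max a (min b (z i)) with hclamp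
  have hclmem : ∀ z, clamp z ∈ Box := fun z =>
    ⟨fun i => le_max_left _ _, fun i => max_le hab (min_le_left _ _)⟩
  have hclip : LipschitzWith 1 clamp := by
    refine LipschitzWith.of_dist_le_mul fun z w => ?_
    rw [NNReal.coe_one, one_mul, dist_pi_le_iff dist_nonneg]
    intro i
    have h1 : LipschitzWith 1 fun s : ℝ => max a (min b s) :=
      (LipschitzWith.id.const_min b).const_max a
    have := h1.dist_le_mul (z i) (w i)
    rw [NNReal.coe_one, one_mul] at this
    exact this.trans (dist_le_pi_dist z w i)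
  obtain ⟨Kf, hKf⟩ := (contDiff_field E k).contDiffOn.exists_lipschitzOnWith one_ne_zero
    (convex_Icc (fun _ : Fin d => a) (fun _ => b)) isCompact_Icc
  set g : (Fin d → ℝ) → (Fin d → ℝ) := fun z => field E k (clamp z) with hg
  have hgl : LipschitzWith Kf g := by
    have := hKf.comp (hclip.lipschitzOnWith (s := Set.univ)) (fun z _ => hclmem z)
    rw [lipschitzOnWith_univ, mul_one] at this
    exact this
  obtain ⟨L, hL⟩ := (isCompact_Icc (a := fun _ : Fin d => a) (b := fun _ => b)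
    ).exists_bound_of_continuousOn (contDiff_field E k).continuous.continuousOn
  set L' : ℝ≥0 := L.toNNReal with hL'
  have hgb : ∀ z, ‖g z‖ ≤ L' := fun z => (hL _ (hclmem z)).trans (Real.le_coe_toNNReal L)
  have hex : ∀ n : ℕ, ∃ α : ℝ → Fin d → ℝ, α 0 = x₀ ∧
      ∀ t ∈ Icc (0 : ℝ) n, HasDerivWithinAt α (g (α t)) (Icc 0 n) t := by
    intro n
    have hPL : IsPicardLindelof (fun _ => g) (tmin := 0) (tmax := (n : ℝ))
        ⟨0, le_rfl, Nat.cast_nonneg n⟩ x₀ (L' * n) 0 L' Kf :=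
      { lipschitzOnWith := fun t _ => hgl.lipschitzOnWith
        continuousOn := fun z _ => continuousOn_const
        norm_le := fun t _ z _ => hgb z
        mul_max_le := by simp }
    obtain ⟨α, hα0, hα⟩ := hPL.exists_eq_forall_mem_Icc_hasDerivWithinAt₀
    exact ⟨α, hα0, hα⟩
  choose α hα0 hα using hex
  have huniq : ∀ (T : ℝ) (u w : ℝ → Fin d → ℝ), u 0 = w 0 →
      (∀ t ∈ Icc (0 : ℝ) T, HasDerivWithinAt u (g (u t)) (Icc 0 T) t) →
      (∀ t ∈ Icc (0 : ℝ) T, HasDerivWithinAt w (g (w t)) (Icc 0 T) t) →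
      EqOn u w (Icc 0 T) := by
    intro T u w h00 hu hw
    exact ODE_solution_unique_of_mem_Icc_right (v := fun _ => g) (s := fun _ => Set.univ) (K := Kf)
      (fun _ _ => hgl.lipschitzOnWith) (fun t ht => (hu t ht).continuousWithinAt)
      (fun t ht => (hu t (Ico_subset_Icc_self ht)).mono_of_mem_nhdsWithin
        (Icc_mem_nhdsGE_of_mem ht))
      (fun _ _ => mem_univ _) (fun t ht => (hw t ht).continuousWithinAt)
      (fun t ht => (hw t (Ico_subset_Icc_self ht)).mono_of_mem_nhdsWithin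
        (Icc_mem_nhdsGE_of_mem ht))
      (fun _ _ => mem_univ _) h00
  set x : ℝ → Fin d → ℝ := fun t => α (⌈t⌉₊ + 1) t with hxdef
  have hxeq : ∀ n : ℕ, ∀ s : ℝ, 0 ≤ s → s ≤ n → x s = α n s := by
    intro n s hs0 hsn
    have hm : s ≤ ((⌈s⌉₊ + 1 : ℕ) : ℝ) := by push_cast; linarith [Nat.le_ceil s]
    refine huniq s (α (⌈s⌉₊ + 1)) (α n) (by rw [hα0, hα0]) ?_ ?_ ⟨hs0, le_rfl⟩
    · exact fun t ht => (hα _ t ⟨ht.1, ht.2.trans hm⟩).mono (Icc_subset_Icc le_rfl hm)
    · exact fun t ht => (hα _ t ⟨ht.1, ht.2.trans hsn⟩).mono (Icc_subset_Icc le_rfl hsn)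
  have hxg : ∀ t, 0 ≤ t → HasDerivWithinAt x (g (x t)) (Ici 0) t := by
    intro t ht
    obtain ⟨n, hn⟩ := exists_nat_gt t
    have h1 : HasDerivWithinAt x (g (x t)) (Icc 0 (n : ℝ)) t := by
      rw [hxeq n t ht hn.le]
      exact (hα n t ⟨ht, hn.le⟩).congr (fun s hs' => hxeq n s hs'.1 hs'.2) (hxeq n t ht hn.le)
    refine h1.mono_of_mem_nhdsWithin ?_
    rw [← Ici_inter_Iic]
    exact inter_mem self_mem_nhdsWithin (mem_nhdsWithin_of_mem_nhds (Iic_mem_nhds hn))
  have hx00 : x 0 = x₀ := by rw [hxeq 0 0 le_rfl (by simp), hα0]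
  -- the solution of the truncated field stays where the truncation is inactive
  have hfix : ∀ z ∈ Box, g z = field E k z := by
    intro z hz
    have : clamp z = z := funext fun i => by
      show max a (min b (z i)) = z i
      rw [min_eq_right (hz.2 i), max_eq_right (hz.1 i)]
    rw [hg]; simp only [this]
  have hKB : ∀ z ∈ Kset d Q M, z ∈ Box := fun z hz =>
    ⟨fun i => by have := hz.1.1 i; rw [ha]; linarith, fun i => by have := hz.1.2 i; rw [hbdef]; linarith⟩
  have hstay : ∀ t, 0 ≤ t → x t ∈ Kset d Q M := by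
    intro T hT
    have hcx : ContinuousOn x (Icc 0 T) := fun t ht =>
      ((hxg t ht.1).continuousWithinAt).mono Icc_subset_Ici_self
    have hclosed : IsClosed ({t | x t ∈ Kset d Q M} ∩ Icc 0 T) := by
      rw [inter_comm]
      exact hcx.preimage_isClosed_of_isClosed isClosed_Icc (isCompact_Kset hb).isClosed
    refine hclosed.Icc_subset_of_forall_mem_nhdsWithin (show x 0 ∈ Kset d Q M by rw [hx00]; exact h0)
      (fun t ⟨htK, ht⟩ => ?_) ⟨hT, le_rfl⟩
    have hev : ∀ᶠ z in nhds (x t), ∀ i, a < z i ∧ z i < b :=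
      eventually_all.mpr fun i => (continuous_apply i).continuousAt.eventually
        (Ioo_mem_nhds (by have := htK.1.1 i; rw [ha]; linarith)
          (by have := htK.1.2 i; rw [hbdef]; linarith))
    have hnear : ∀ᶠ s in nhdsWithin t (Ici t), x s ∈ Box := by
      have := ((hxg t ht.1).continuousWithinAt.mono (Ici_subset_Ici.mpr ht.1)).eventually hev
      filter_upwards [this] with s hs'
      exact ⟨fun i => (hs' i).1.le, fun i => (hs' i).2.le⟩
    obtain ⟨u, hu, husub⟩ := mem_nhdsGE_iff_exists_Icc_subset.mp hnear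
    filter_upwards [Ioo_mem_nhdsGT hu] with s hsI
    -- shift time to apply invariance
    have hsol : IsSol E (fun _ => k) (fun τ => x (τ + t)) (s - t) := by
      refine isSol_of_deriv (by linarith [hsI.1]) fun τ hτ => ?_
      have hmem : τ + t ∈ Icc t u := ⟨by linarith [hτ.1], by linarith [hτ.2, hsI.2]⟩
      have hmaps : MapsTo (fun r : ℝ => id r + t) (Icc 0 (s - t)) (Ici 0) := fun r hr => by
        show 0 ≤ r + t
        linarith [hr.1, ht.1]
      have h1 := (hxg (τ + t) (by linarith [hτ.1, ht.1])).scomp τ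
        ((hasDerivAt_id τ).add_const t).hasDerivWithinAt hmaps
      rw [one_smul, hfix _ (husub hmem)] at h1
      exact h1
    have := invariant hs hb (fun _ => hk) hsol (by simpa using htK) (s - t)
      ⟨by linarith [hsI.1], le_rfl⟩
    simpa using this
  have hxf : ∀ t, 0 ≤ t → HasDerivWithinAt x (field E k (x t)) (Ici 0) t := fun t ht => by
    rw [← hfix _ (hKB _ (hstay t ht))]; exact hxg t ht
  refine ⟨x, hx00, hxf, fun T hT => isSol_of_deriv hT
    (fun t ht => (hxf t ht.1).mono Icc_subset_Ici_self), ?_⟩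
  intro T y hy0 hy t ht
  have hT : 0 ≤ T := ht.1.trans ht.2
  have hyK := invariant hs hb (fun _ => hk) (isSol_of_deriv hT hy) (by rw [hy0]; exact h0)
  refine huniq T y x (by rw [hy0, hx00]) ?_ (fun s hs' => (hxg s hs'.1).mono Icc_subset_Ici_self) ht
  intro s hs'
  rw [hfix _ (hKB _ (hyK s hs'))]
  exact hy s hs'

/-- Suitable constants exist for every network and every `ε`. -/
theorem exists_setup (E : Net d)
    (hwr : ∀ e ∈ E, ReflTransGen (fun y y' => (y, y') ∈ E) e.2 e.1) {ε : ℝ} (hε : 0 < ε) :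
    ∃ M R0, Setup E M ε R0 := by
  classical
  refine ⟨E.sup fun e => max (Finset.univ.sup e.1) (Finset.univ.sup e.2),
    2 * (E.card : ℝ) / ε ^ 2 + 1, hwr, fun e he i => ?_, hε, ?_⟩
  · have h := Finset.le_sup (f := fun e : (Fin d → ℕ) × (Fin d → ℕ) =>
      max (Finset.univ.sup e.1) (Finset.univ.sup e.2)) he
    exact ⟨(Finset.le_sup (f := e.1) (Finset.mem_univ i)).trans ((le_max_left _ _).trans h),
      (Finset.le_sup (f := e.2) (Finset.mem_univ i)).trans ((le_max_right _ _).trans h)⟩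
  · rw [add_sub_cancel_right, Real.exp_neg, ← div_eq_mul_inv, div_le_iff₀ (Real.exp_pos _)]
    have h1 := Real.add_one_le_exp (2 * (E.card : ℝ) / ε ^ 2)
    have h2 : (0 : ℝ) < ε ^ 2 := by positivity
    have h3 : ε ^ 2 / 2 * (2 * (E.card : ℝ) / ε ^ 2) = E.card := by field_simp
    nlinarith

end Vale.Agent.P072
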