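import Vale.Agent.P072.Branch

/-!
The Lyapunov function: a maximum of affine functions over all branches.
-/

namespace Vale.Agent.P072

open Finset

variable {d : ℕ}

/-- Weight of slot `s`. -/
noncomputable def wt (Q : ℝ) (e : Fin d → Bool) (s : Fin d) : ℝ :=
  if e s then Real.exp (-rad Q e s) else 1

theorem wt_pos (Q : ℝ) (e : Fin d → Bool) (s : Fin d) : 0 < wt Q e s := by
  unfold wt; split_ifs <;> positivity

theorem wt_le_one {Q : ℝ} (hQ : 1 ≤ Q) (e : Fin d → Bool) (s : Fin d) : wt Q e s ≤ 1 := by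
  unfold wt; split_ifs
  · exact Real.exp_le_one_iff.mpr (by have := rad_pos hQ e s; linarith)
  · exact le_rfl

theorem wt_congr (Q : ℝ) {e e' : Fin d → Bool} {s : Fin d} (h : ∀ r, r ≤ s → e r = e' r) :
    wt Q e s = wt Q e' s := by
  unfold wt; rw [h s le_rfl, rad_congr Q (fun r hr => h r hr.le)]

/-- Value of the branch `(e, a)` at the sorted point `y`. -/
noncomputable def val (Q : ℝ) (y : Fin d → ℝ) (e : Fin d → Bool) (a : Fin d → ℝ) : ℝ :=
  ∑ s, (y s * a s - wt Q e s * Real.exp (a s))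

/-- The pair `q` maximises the value at the sorted point `y`. -/
def IsBest (Q : ℝ) (M : ℕ) (y : Fin d → ℝ) (q : (Fin d → Bool) × (Fin d → ℝ)) : Prop :=
  Adm Q M q.1 q.2 ∧ ∀ e a, Adm Q M e a → val Q y e a ≤ val Q y q.1 q.2

theorem term_bound {x w : ℝ} (hx : 0 < x) (hw : 0 < w) (t : ℝ) :
    x * t - w * Real.exp t ≤ -(x * |t|) + 2 * x * |Real.log (2 * x / w)| := by
  set c := Real.log (2 * x / w) with hc
  rcases le_or_gt 0 t with ht | ht
  · rw [abs_of_nonneg ht]
    have h1 : w * Real.exp t = 2 * x * Real.exp (t - c) := by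
      rw [Real.exp_sub, hc, Real.exp_log (by positivity)]; field_simp
    have h2 := Real.add_one_le_exp (t - c)
    have h3 := le_abs_self c
    rw [h1]; nlinarith
  · rw [abs_of_neg ht]
    have : 0 ≤ w * Real.exp t := by positivity
    have : 0 ≤ 2 * x * |c| := by positivity
    nlinarith

theorem exists_isBest (Q : ℝ) (M : ℕ) {y : Fin d → ℝ} (hy : ∀ s, 0 < y s) :
    ∃ q, IsBest Q M y q := by
  classical
  set e0 : Fin d → Bool := fun _ => true
  set v0 := val Q y e0 (fun _ => 0) with hv0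
  set C : (Fin d → Bool) → ℝ := fun e => ∑ s, 2 * y s * |Real.log (2 * y s / wt Q e s)| with hC
  set B : Fin d → ℝ := fun s => (∑ e : Fin d → Bool, |C e| + |v0|) / y s with hB
  set T : Set ((Fin d → Bool) × (Fin d → ℝ)) :=
    ⋃ e : Fin d → Bool, ({e} : Set (Fin d → Bool)) ×ˢ
      ({a | Adm Q M e a} ∩ Set.pi Set.univ fun s => Set.Icc (-B s) (B s)) with hT
  have hTc : IsCompact T := isCompact_iUnion fun e => isCompact_singleton.prod
    ((isCompact_univ_pi fun s => isCompact_Icc).inter_left (isClosed_adm Q M e))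
  have hB0 : ∀ s, 0 ≤ B s := fun s => by
    have := hy s; positivity
  have hmem0 : (e0, fun _ : Fin d => (0 : ℝ)) ∈ T := by
    simp only [hT, Set.mem_iUnion, Set.mem_prod, Set.mem_singleton_iff, Set.mem_inter_iff,
      Set.mem_pi, Set.mem_univ, forall_const, Set.mem_Icc]
    exact ⟨e0, rfl, adm_zero Q M, fun s => ⟨by have := hB0 s; linarith, hB0 s⟩⟩
  have hcont : Continuous fun q : (Fin d → Bool) × (Fin d → ℝ) => val Q y q.1 q.2 := by
    rw [continuous_prod_of_discrete_left]
    intro e; unfold val; fun_prop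
  obtain ⟨q, hq, hmax⟩ := hTc.exists_isMaxOn ⟨_, hmem0⟩ hcont.continuousOn
  simp only [hT, Set.mem_iUnion, Set.mem_prod, Set.mem_singleton_iff, Set.mem_inter_iff] at hq
  obtain ⟨e, hqe, hqa, -⟩ := hq
  refine ⟨q, hqe ▸ hqa, fun e' a' ha' => ?_⟩
  rcases lt_or_ge (val Q y e' a') v0 with hlt | hge
  · exact hlt.le.trans (hmax hmem0)
  · refine hmax (show (e', a') ∈ T from Set.mem_iUnion.mpr ⟨e', rfl, ha', fun s _ => ?_⟩)
    have h1 : val Q y e' a' ≤ -(∑ s, y s * |a' s|) + C e' := by
      rw [hC, ← Finset.sum_neg_distrib, ← Finset.sum_add_distrib]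
      exact Finset.sum_le_sum fun s _ => term_bound (hy s) (wt_pos Q e' s) _
    have h2 : y s * |a' s| ≤ ∑ r, y r * |a' r| :=
      Finset.single_le_sum (f := fun r => y r * |a' r|)
        (fun r _ => mul_nonneg (hy r).le (abs_nonneg _)) (Finset.mem_univ s)
    have h3 : C e' ≤ ∑ e : Fin d → Bool, |C e| :=
      (le_abs_self _).trans (Finset.single_le_sum (f := fun e => |C e|)
        (fun e _ => abs_nonneg _) (Finset.mem_univ e'))
    have h4 := neg_abs_le v0
    have h5 : |a' s| ≤ B s := by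
      rw [hB, le_div_iff₀ (hy s)]; linarith [mul_comm (|a' s|) (y s)]
    exact abs_le.mp h5

/-- A chosen maximiser at the sorted point `y`. -/
noncomputable def best (Q : ℝ) (M : ℕ) (y : Fin d → ℝ) : (Fin d → Bool) × (Fin d → ℝ) :=
  Classical.epsilon (IsBest Q M y)

theorem best_spec (Q : ℝ) (M : ℕ) {y : Fin d → ℝ} (hy : ∀ s, 0 < y s) :
    IsBest Q M y (best Q M y) :=
  Classical.epsilon_spec (exists_isBest Q M hy)

/-- The permutation sorting `x` downwards. -/
noncomputable def sortDown (x : Fin d → ℝ) : Equiv.Perm (Fin d) := Tuple.sort fun i => -x i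

/-- The sorted copy of `x`. -/
noncomputable def sorted (x : Fin d → ℝ) : Fin d → ℝ := fun s => x (sortDown x s)

theorem antitone_sorted (x : Fin d → ℝ) : Antitone (sorted x) := fun a b hab => by
  have := Tuple.monotone_sort (fun i => -x i) hab
  simpa [sorted, sortDown] using this

/-- The Lyapunov function. -/
noncomputable def phi (Q : ℝ) (M : ℕ) (x : Fin d → ℝ) : ℝ :=
  val Q (sorted x) (best Q M (sorted x)).1 (best Q M (sorted x)).2

/-- A subgradient of the Lyapunov function. -/
noncomputable def grad (Q : ℝ) (M : ℕ) (x : Fin d → ℝ) : Fin d → ℝ :=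
  fun j => (best Q M (sorted x)).2 ((sortDown x).symm j)

theorem le_phi {Q : ℝ} {M : ℕ} {x : Fin d → ℝ} (hx : ∀ i, 0 < x i) (σ : Equiv.Perm (Fin d))
    {e : Fin d → Bool} {a : Fin d → ℝ} (ha : Adm Q M e a) :
    val Q (fun s => x (σ s)) e a ≤ phi Q M x := by
  refine le_trans ?_ ((best_spec Q M fun s => hx (sortDown x s)).2 e a ha)
  have hmono : Monovary (sorted x) a := (antitone_sorted x).monovary ha.1
  have := hmono.sum_comp_perm_mul_le_sum_mul (σ := σ.trans (sortDown x).symm)
  simp only [sorted, Equiv.trans_apply, Equiv.apply_symm_apply] at this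
  simp only [val, Finset.sum_sub_distrib, sorted]
  linarith

theorem phi_subgrad {Q : ℝ} {M : ℕ} {x x' : Fin d → ℝ} (hx : ∀ i, 0 < x i)
    (hx' : ∀ i, 0 < x' i) :
    phi Q M x + ∑ j, grad Q M x j * (x' j - x j) ≤ phi Q M x' := by
  have h := (best_spec Q M (y := sorted x) fun s => hx (sortDown x s)).1
  refine le_trans (le_of_eq ?_) (le_phi hx' (sortDown x) h)
  have h1 : ∑ j, grad Q M x j * (x' j - x j) =
      ∑ s, (best Q M (sorted x)).2 s * (x' (sortDown x s) - sorted x s) := by
    rw [← Equiv.sum_comp (sortDown x)]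
    simp [grad, sorted]
  simp only [phi, val, h1, ← Finset.sum_add_distrib]
  exact Finset.sum_congr rfl fun s _ => by simp only [sorted]; ring

/-- An integer vector paired with the subgradient, in slot coordinates. -/
theorem sum_grad {Q : ℝ} {M : ℕ} (x : Fin d → ℝ) (v : Fin d → ℤ) :
    ∑ j, (v j : ℝ) * grad Q M x j =
      dot (fun s => v (sortDown x s)) (best Q M (sorted x)).2 := by
  simp only [grad, dot]
  rw [← Equiv.sum_comp (sortDown x)]
  simp

end Vale.Agent.P072
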