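import Vale.Agent.P072.Slots

/-!
Sign property of the subgradient, the flat core, compact sublevel sets and continuity.
-/

namespace Vale.Agent.P072

open Finset Filter

variable {d : ℕ}

/-- Componentwise logarithm in sorted coordinates compared with the subgradient. -/
theorem sorted_pos {x : Fin d → ℝ} (hx : ∀ i, 0 < x i) : ∀ s, 0 < sorted x s :=
  fun _ => hx _

theorem gradient_bound {M : ℕ} {R0 Q : ℝ} (hb : Big d M R0 Q) {x : Fin d → ℝ}
    (hx : ∀ i, 0 < x i) (j : Fin d) :
    |grad Q M x j| ≤ |Real.log (x j)| + Q ^ (2 ^ d) + kk d Q := by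
  have h := slot_bound hb (sorted_pos hx) (antitone_sorted x)
    (best_spec Q M (sorted_pos hx)) ((sortDown x).symm j)
  rw [show sorted x ((sortDown x).symm j) = x j by simp [sorted]] at h
  simp only [grad]
  have h1 := abs_le.mp h
  have h2 : (if (best Q M (sorted x)).1 ((sortDown x).symm j) then
      rad Q (best Q M (sorted x)).1 ((sortDown x).symm j) else 0) ≤ Q ^ (2 ^ d) := by
    split_ifs
    · exact rad_le hb.one_le _ _
    · have := hb.one_le; positivity
  rw [abs_le]
  constructor <;> linarith [le_abs_self (Real.log (x j)), neg_abs_le (Real.log (x j))]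

/-- Where the pairing with an integer vector is nonzero it is bounded below, and the pairing with
`log x` has the same sign and is large. -/
theorem sign_property {M : ℕ} {R0 Q : ℝ} (hb : Big d M R0 Q) {x : Fin d → ℝ}
    (hx : ∀ i, 0 < x i) {v : Fin d → ℤ} (hv : ∀ j, |v j| ≤ (M : ℤ))
    (hpos : 0 < ∑ j, (v j : ℝ) * grad Q M x j) :
    Q ≤ (cN M d d : ℝ) * ∑ j, (v j : ℝ) * grad Q M x j ∧
      R0 ≤ ∑ j, (v j : ℝ) * Real.log (x j) := by
  have hQ := hb.one_le
  set σ := sortDown x with hσ
  set e := (best Q M (sorted x)).1 with he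
  set a := (best Q M (sorted x)).2 with ha
  have hbest := best_spec Q M (sorted_pos hx)
  rw [sum_grad] at hpos ⊢
  set u : Fin d → ℤ := fun s => v (σ s) with hu
  have hC : (1 : ℝ) ≤ cN M d d := by exact_mod_cast one_le_cN M d d
  rcases gap hQ hbest.1 u (fun j => (hv _).trans (by omega)) with h0 | ⟨r, hr, hle⟩
  · rw [h0] at hpos; exact absurd hpos (lt_irrefl 0)
  · rw [abs_of_pos hpos] at hle
    refine ⟨(le_rad hQ e r).trans hle, ?_⟩
    have hsum : ∑ j, (v j : ℝ) * Real.log (x j) =
        dot u a + ∑ s, (u s : ℝ) * (Real.log (sorted x s) - a s) := by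
      rw [← Equiv.sum_comp σ]
      simp only [dot, ← Finset.sum_add_distrib, hu, sorted, ← hσ]
      exact Finset.sum_congr rfl fun s _ => by ring
    set B := rad Q e r / Q + kk d Q with hB
    have hrad := rad_pos hQ e r
    have hB0 : ∀ s, |Real.log (sorted x s) - a s| ≤ B := by
      intro s
      refine (slot_bound hb (sorted_pos hx) (antitone_sorted x) hbest s).trans ?_
      rw [hB]; gcongr
      cases hs : (best Q M (sorted x)).1 s with
      | false => simp only [Bool.false_eq_true, if_false]; positivity
      | true =>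
        simp only [if_true]
        rw [le_div_iff₀ (by linarith)]
        rcases lt_trichotomy s r with h | h | h
        · linarith [rad_gap_true hQ h hs]
        · rw [h] at hs; rw [hs] at hr; exact absurd hr (by simp)
        · linarith [rad_gap_false hQ h hr]
    have herr : |∑ s, (u s : ℝ) * (Real.log (sorted x s) - a s)| ≤ (d * M : ℝ) * B := by
      refine (Finset.abs_sum_le_sum_abs _ _).trans ?_
      calc ∑ s, |(u s : ℝ) * (Real.log (sorted x s) - a s)| ≤ ∑ _s : Fin d, (M : ℝ) * B :=
            Finset.sum_le_sum fun s _ => by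
              rw [abs_mul]
              refine mul_le_mul ?_ (hB0 s) (abs_nonneg _) (Nat.cast_nonneg M)
              exact_mod_cast hv (σ s)
        _ = (d * M : ℝ) * B := by simp; ring
    rw [hsum]
    have h1 := (abs_le.mp herr).1
    have hsep := hb.sep
    have hgap := hb.gapQ
    have hrQ := le_rad hQ e r
    set C : ℝ := (cN M d d : ℝ) with hCdef
    have hQ0 : (0 : ℝ) < Q := by linarith
    have h2 : 2 * C * ((d * M : ℝ) * (rad Q e r / Q)) ≤ rad Q e r := by
      have : 2 * C * ((d * M : ℝ) * (rad Q e r / Q)) = (2 * C * (d * M)) / Q * rad Q e r := by ring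
      rw [this]
      exact mul_le_of_le_one_left hrad.le ((div_le_one hQ0).mpr hsep)
    have h3 : 2 * C * R0 ≤ 2 * C * (dot u a - (d * M : ℝ) * B) := by
      rw [hB]; nlinarith
    have h4 := le_of_mul_le_mul_left h3 (by linarith)
    linarith

/-- The value at the flat core. -/
noncomputable def core (d : ℕ) (Q : ℝ) : ℝ :=
  -∑ s : Fin d, Real.exp (-rad Q (fun _ => true) s)

/-- The level used for the sublevel sets. -/
noncomputable def level (d : ℕ) (Q : ℝ) : ℝ := core d Q + Real.exp (-Q ^ (2 ^ d)) / 2

theorem phi_core {M : ℕ} {R0 Q : ℝ} (hb : Big d M R0 Q) {x : Fin d → ℝ}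
    (hx : ∀ i, 0 < x i) {B : ℝ} (hB : ∀ i, |Real.log (x i)| ≤ B) (hBQ : B + kk d Q < Q) :
    phi Q M x = core d Q := by
  have hQ := hb.one_le
  set e := (best Q M (sorted x)).1 with he
  set a := (best Q M (sorted x)).2 with ha
  have hbest := best_spec Q M (sorted_pos hx)
  have hall : ∀ s, e s = true := by
    intro s
    by_contra hs
    rw [Bool.not_eq_true] at hs
    have h1 := adm_false hbest.1 hs (vec_single (M := M) s)
    rw [dot_single] at h1
    simp only [Pi.single_eq_same, Int.cast_one, abs_one, one_mul] at h1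
    have h2 := slot_bound hb (sorted_pos hx) (antitone_sorted x) hbest s
    rw [if_neg (by simp [← he, hs]), zero_add, abs_le] at h2
    have h3 := abs_le.mp (hB (sortDown x s))
    have h4 := le_rad hQ e s
    simp only [sorted] at h2
    have : |a s| ≤ B + kk d Q := abs_le.mpr ⟨by linarith, by linarith⟩
    have : rad Q e s ≤ |a s| := h1
    linarith
  have hzero : ∀ s, a s = 0 := by
    intro s
    rcases gap hQ hbest.1 (Pi.single s 1) (fun j => by
      by_cases hj : j = s
      · simp [hj]
      · simp only [Pi.single_eq_of_ne hj, abs_zero]; positivity) with h | ⟨r, hr, -⟩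
    · rwa [dot_single] at h
    · rw [← he, hall r] at hr; exact absurd hr (by simp)
  have hefun : e = fun _ => true := funext hall
  show val Q (sorted x) e a = core d Q
  simp only [val, core, hzero, Real.exp_zero, mul_zero, mul_one, zero_sub, hefun, wt, if_true,
    Finset.sum_neg_distrib]

/-- Lower end of the box that contains a sublevel set. -/
noncomputable def lo (d : ℕ) (Q : ℝ) : ℝ := Real.exp (-Q ^ (2 ^ d)) / (4 * (Q ^ (2 ^ d) + 2))

/-- Upper end of the box that contains a sublevel set. -/
noncomputable def hi (d : ℕ) (Q : ℝ) : ℝ := 1 + d * Real.exp (Q ^ (2 ^ d))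

theorem lo_pos {Q : ℝ} (hQ : 1 ≤ Q) : 0 < lo d Q := by unfold lo; positivity

theorem sublevel_box {M : ℕ} {Q : ℝ} (hQ : 1 ≤ Q) {x : Fin d → ℝ} (hx : ∀ i, 0 < x i)
    (h : phi Q M x ≤ level d Q) (j : Fin d) : lo d Q ≤ x j ∧ x j ≤ hi d Q := by
  set Qm := Q ^ (2 ^ d) with hQm
  have hQm1 : 1 ≤ Qm := one_le_pow₀ hQ
  have hd : 0 < d := j.pos
  constructor
  · set t : Fin d := ⟨d - 1, by omega⟩ with ht
    have hle : ∀ r : Fin d, r ≤ t := fun r => by
      show (r : ℕ) ≤ d - 1
      omega
    set e : Fin d → Bool := fun s => decide (s ≠ t) with he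
    set a : Fin d → ℝ := fun s => if s = t then -(Qm + 2) else 0 with ha
    have hadm : Adm Q M e a := by
      refine ⟨fun r s hrs => ?_, fun s => ?_⟩
      · simp only [ha]
        by_cases h1 : r = t
        · have : s = t := le_antisymm (hle s) (h1 ▸ hrs)
          simp [h1, this]
        · by_cases h2 : s = t <;> simp [h1, h2]; linarith
      · by_cases hs : s = t
        · subst hs
          simp only [he, ne_eq, not_true, decide_false, Bool.false_eq_true, if_false]
          intro v hv
          have : dot v a = (v t : ℝ) * (-(Qm + 2)) := by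
            unfold dot
            rw [Finset.sum_eq_single t]
            · simp [ha]
            · intro r _ hr; simp [ha, hr]
            · simp
          rw [this, abs_mul, abs_neg, abs_of_nonneg (by linarith : (0 : ℝ) ≤ Qm + 2)]
          gcongr
          linarith [rad_le hQ (fun s => decide (s ≠ t)) t]
        · simp only [he, ne_eq, hs, not_false_eq_true, decide_true, if_true]
          exact ⟨_, vec_single s, by simp [dot_single, ha, hs]⟩
    have hv := le_phi hx (Equiv.swap t j) hadm
    have hval : val Q (fun s => x (Equiv.swap t j s)) e a = x j * (-(Qm + 2)) -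
        Real.exp (-(Qm + 2)) + (core d Q + Real.exp (-rad Q (fun _ => true) t)) := by
      have hw : ∀ s, s ≠ t → wt Q e s = Real.exp (-rad Q (fun _ => true) s) := by
        intro s hs
        have : wt Q e s = wt Q (fun _ => true) s := wt_congr Q fun r hr => by
          have : r ≠ t := fun h1 => hs (le_antisymm (hle s) (h1 ▸ hr))
          simp [he, this]
        rw [this]; simp [wt]
      simp only [val, core]
      rw [← Finset.add_sum_erase _ _ (Finset.mem_univ t),
        ← Finset.add_sum_erase Finset.univ (fun s => Real.exp (-rad Q (fun _ => true) s))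
          (Finset.mem_univ t)]
      have h1 : ∑ s ∈ Finset.univ.erase t, (x (Equiv.swap t j s) * a s - wt Q e s * Real.exp (a s))
          = -∑ s ∈ Finset.univ.erase t, Real.exp (-rad Q (fun _ => true) s) := by
        rw [← Finset.sum_neg_distrib]
        refine Finset.sum_congr rfl fun s hs => ?_
        have hst := Finset.ne_of_mem_erase hs
        simp [ha, hst, hw s hst]
      have h2 : wt Q e t = 1 := by simp [wt, he]
      rw [h1, h2]
      simp only [ha, if_true, Equiv.swap_apply_left]
      ring
    rw [hval] at hv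
    have h1 : Real.exp (-Qm) ≤ Real.exp (-rad Q (fun _ => true) t) :=
      Real.exp_le_exp.mpr (by linarith [rad_le hQ (fun _ : Fin d => true) t])
    have h2 : Real.exp (-(Qm + 2)) ≤ Real.exp (-Qm) / 4 := by
      rw [neg_add, Real.exp_add, Real.exp_neg 2, div_eq_mul_inv]
      gcongr
      have h3 := Real.add_one_le_exp (1 : ℝ)
      have : Real.exp 2 = Real.exp 1 * Real.exp 1 := by rw [← Real.exp_add]; norm_num
      nlinarith
    rw [lo, div_le_iff₀ (by positivity)]
    unfold level at h
    rw [← hQm] at *
    nlinarith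
  · set z : Fin d := ⟨0, hd⟩ with hz
    set e : Fin d → Bool := fun s => decide (s ≠ z) with he
    set a : Fin d → ℝ := fun _ => Qm with ha
    have hadm : Adm Q M e a := by
      refine ⟨fun _ _ _ => le_rfl, fun s => ?_⟩
      by_cases hs : s = z
      · subst hs
        simp only [he, ne_eq, not_true, decide_false, Bool.false_eq_true, if_false]
        intro v hv
        have : dot v a = (v z : ℝ) * Qm := by
          unfold dot
          rw [Finset.sum_eq_single z]
          · intro r _ hr
            have hlt : z < r := lt_of_le_of_ne (show (0 : ℕ) ≤ (r : ℕ) from Nat.zero_le _) (Ne.symm hr)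
            simp [hv.1 r hlt]
          · simp
        rw [this, abs_mul, abs_of_nonneg (by linarith : (0 : ℝ) ≤ Qm)]
        gcongr
        exact rad_le hQ _ z
      · simp only [he, ne_eq, hs, not_false_eq_true, decide_true, if_true]
        have hlt : z < s := lt_of_le_of_ne (show (0 : ℕ) ≤ (s : ℕ) from Nat.zero_le _) (Ne.symm hs)
        exact ⟨_, vec_tie hlt, by simp [dot_tie hlt, ha]⟩
    have hv := le_phi hx (Equiv.refl _) hadm
    have hval : Qm * ∑ s, x s - d * Real.exp Qm ≤ val Q (fun s => x (Equiv.refl _ s)) e a := by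
      simp only [val, ha, Equiv.refl_apply, Finset.sum_sub_distrib]
      have h1 : ∑ s : Fin d, wt Q e s * Real.exp Qm ≤ ∑ _s : Fin d, Real.exp Qm :=
        Finset.sum_le_sum fun s _ => mul_le_of_le_one_left (Real.exp_pos _).le (wt_le_one hQ e s)
      simp only [Finset.sum_const, Finset.card_univ, Fintype.card_fin, nsmul_eq_mul] at h1
      rw [← Finset.sum_mul]
      nlinarith
    have h1 : level d Q ≤ 1 := by
      have : core d Q ≤ 0 := neg_nonpos.mpr (Finset.sum_nonneg fun s _ => (Real.exp_pos _).le)
      have := Real.exp_le_one_iff.mpr (show -Qm ≤ 0 by linarith)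
      unfold level; rw [← hQm]; linarith
    have h2 : x j ≤ ∑ s, x s := Finset.single_le_sum (fun s _ => (hx s).le) (Finset.mem_univ j)
    have h3 : ∑ s, x s ≤ Qm * ∑ s, x s :=
      le_mul_of_one_le_left (Finset.sum_nonneg fun s _ => (hx s).le) hQm1
    unfold hi
    rw [← hQm]
    linarith

theorem continuousAt_phi {M : ℕ} {R0 Q : ℝ} (hb : Big d M R0 Q) {x : Fin d → ℝ}
    (hx : ∀ i, 0 < x i) : ContinuousAt (phi Q M) x := by
  classical
  have hnhds : ∀ᶠ z in nhds x, ∀ i, x i / 2 < z i ∧ z i < 2 * x i :=
    eventually_all.mpr fun i =>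
      (continuous_apply i).continuousAt.eventually
        (Ioo_mem_nhds (by linarith [hx i]) (by linarith [hx i]))
  set G : ℝ := ∑ i, (|Real.log (x i)| + Real.log 2) + Q ^ (2 ^ d) + kk d Q with hG
  have hlog2 : 0 ≤ Real.log 2 := Real.log_nonneg (by norm_num)
  have hbound : ∀ z : Fin d → ℝ, (∀ i, x i / 2 < z i ∧ z i < 2 * x i) →
      (∀ i, 0 < z i) ∧ ∀ i, |grad Q M z i| ≤ G := by
    intro z hz
    have hz0 : ∀ i, 0 < z i := fun i => by linarith [(hz i).1, hx i]
    refine ⟨hz0, fun i => (gradient_bound hb hz0 i).trans ?_⟩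
    have h1 : |Real.log (z i)| ≤ |Real.log (x i)| + Real.log 2 := by
      have h2 : Real.log (z i) ≤ Real.log (x i) + Real.log 2 := by
        rw [← Real.log_mul (hx i).ne' (by norm_num)]
        exact Real.log_le_log (hz0 i) (by linarith [(hz i).2])
      have h3 : Real.log (x i) - Real.log 2 ≤ Real.log (z i) := by
        rw [← Real.log_div (hx i).ne' (by norm_num)]
        exact Real.log_le_log (by linarith [hx i]) (hz i).1.le
      rw [abs_le]
      constructor <;> linarith [le_abs_self (Real.log (x i)), neg_abs_le (Real.log (x i))]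
    have h4 : |Real.log (x i)| + Real.log 2 ≤ ∑ i, (|Real.log (x i)| + Real.log 2) :=
      Finset.single_le_sum (f := fun i => |Real.log (x i)| + Real.log 2)
        (fun i _ => by positivity) (Finset.mem_univ i)
    rw [hG]; linarith
  have hlim : Tendsto (fun z => G * ∑ i, |z i - x i|) (nhds x) (nhds 0) := by
    have h : Continuous fun z : Fin d → ℝ => G * ∑ i, |z i - x i| := by fun_prop
    simpa using h.tendsto x
  rw [ContinuousAt, tendsto_iff_dist_tendsto_zero]
  refine squeeze_zero' (Eventually.of_forall fun _ => dist_nonneg) ?_ hlim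
  filter_upwards [hnhds] with z hz
  obtain ⟨hz0, hzg⟩ := hbound z hz
  obtain ⟨-, hxg⟩ := hbound x (fun i => ⟨by linarith [hx i], by linarith [hx i]⟩)
  have est : ∀ p : Fin d → ℝ, (∀ i, |p i| ≤ G) →
      |∑ i, p i * (z i - x i)| ≤ G * ∑ i, |z i - x i| := by
    intro p hp
    refine (Finset.abs_sum_le_sum_abs _ _).trans ?_
    rw [Finset.mul_sum]
    exact Finset.sum_le_sum fun i _ => by
      rw [abs_mul]; exact mul_le_mul_of_nonneg_right (hp i) (abs_nonneg _)
  have h1 := phi_subgrad (Q := Q) (M := M) hx hz0
  have h2 := phi_subgrad (Q := Q) (M := M) hz0 hx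
  have h3 : ∑ j, grad Q M z j * (x j - z j) = -∑ j, grad Q M z j * (z j - x j) := by
    rw [← Finset.sum_neg_distrib]; exact Finset.sum_congr rfl fun j _ => by ring
  rw [h3] at h2
  have e1 := abs_le.mp (est _ hxg)
  have e2 := abs_le.mp (est _ hzg)
  rw [Real.dist_eq, abs_le]
  constructor <;> linarith

/-- All conditions hold once `Q` is large enough, also with any bound `B` below `Q`. -/
theorem eventually_big (d M : ℕ) (R0 B : ℝ) :
    ∀ᶠ Q in atTop, Big d M R0 Q ∧ B + kk d Q < Q := by
  have key : ∀ C C' : ℝ, ∀ᶠ Q in atTop, C * kk d Q + C' ≤ Q := by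
    intro C C'
    set A : ℝ := |C| * 2 ^ d with hA
    set A' : ℝ := C * (Real.log 5 + 2 * d + 4) + C' with hA'
    have hpos : (0 : ℝ) < 1 / (2 * (A + 1)) := by positivity
    filter_upwards [Real.isLittleO_log_id_atTop.def hpos, eventually_ge_atTop 1,
      eventually_ge_atTop (2 * A')] with Q hQ hQ1 hQA
    simp only [Real.norm_eq_abs, id] at hQ
    have hlog : 0 ≤ Real.log Q := Real.log_nonneg hQ1
    rw [abs_of_nonneg hlog, abs_of_nonneg (by linarith : (0 : ℝ) ≤ Q)] at hQ
    have hkk : kk d Q = Real.log 5 + 2 ^ d * Real.log Q + 2 * d + 4 := by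
      rw [kk, Real.log_mul (by norm_num) (by positivity), Real.log_pow]; push_cast; ring
    have h1 : C * (2 ^ d * Real.log Q) ≤ A * Real.log Q := by
      rw [hA, mul_assoc]; exact mul_le_mul_of_nonneg_right (le_abs_self C) (by positivity)
    have h2 : A * Real.log Q ≤ Q / 2 := by
      rw [div_mul_eq_mul_div, one_mul, le_div_iff₀ (by positivity)] at hQ
      nlinarith
    have h3 : C * kk d Q + C' = C * (2 ^ d * Real.log Q) + A' := by rw [hkk, hA']; ring
    rw [h3]; linarith
  filter_upwards [eventually_ge_atTop 4, eventually_ge_atTop (d : ℝ), key 2 (2 * d),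
    eventually_ge_atTop (2 * (cN M d d : ℝ) * (d * M)),
    key (2 * (cN M d d : ℝ) * (d * M)) (2 * (cN M d d : ℝ) * R0), key 1 (B + 1)]
    with Q h1 h2 h3 h4 h5 h6
  exact ⟨⟨h1, h2, by linarith, h4, by linarith⟩, by linarith⟩

end Vale.Agent.P072
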