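import Vale.Agent.P072.Phi

/-!
The slot estimate: at a maximiser, free slots follow `log y` up to a logarithmic error and snapped
slots up to their own scale.  This gives the sign property of the subgradient.
-/

namespace Vale.Agent.P072

open Finset

variable {d : ℕ}

/-- The logarithmic error term. -/
noncomputable def kk (d : ℕ) (Q : ℝ) : ℝ := Real.log (5 * Q ^ (2 ^ d)) + 2 * d + 4

/-- The largeness conditions on the parameter `Q`. -/
structure Big (d M : ℕ) (R0 Q : ℝ) : Prop where
  four_le : 4 ≤ Q
  dim_le : (d : ℝ) ≤ Q
  kk_le : 2 * (kk d Q + d) ≤ Q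
  sep : 2 * (cN M d d : ℝ) * (d * M) ≤ Q
  gapQ : 2 * (cN M d d : ℝ) * (d * M * kk d Q + R0) ≤ Q

theorem Big.one_le {M : ℕ} {R0 Q : ℝ} (h : Big d M R0 Q) : 1 ≤ Q := by linarith [h.four_le]

theorem kk_nonneg {Q : ℝ} (hQ : 1 ≤ Q) : 0 ≤ kk d Q := by
  have : 0 ≤ Real.log (5 * Q ^ (2 ^ d)) :=
    Real.log_nonneg (by nlinarith [one_le_pow₀ (n := 2 ^ d) hQ])
  unfold kk; positivity

theorem exp_self_bound {t B : ℝ} (hB : 0 < B) (h : Real.exp t ≤ t + B) :
    t ≤ Real.log (2 * B) := by
  have h1 : 2 * t ≤ Real.exp t := by
    have h2 := Real.add_one_le_exp (t - 1)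
    have h3 := Real.add_one_le_exp (1 : ℝ)
    have h4 : Real.exp t = Real.exp (t - 1) * Real.exp 1 := by rw [← Real.exp_add]; simp
    rcases le_or_gt 0 t with h5 | h5
    · rw [h4]; nlinarith [Real.exp_pos (t - 1)]
    · nlinarith [Real.exp_pos t]
  rw [Real.le_log_iff_exp_le (by positivity)]
  linarith

theorem dot_change {M : ℕ} {a a' : Fin d → ℝ} {s : Fin d} {v : Fin d → ℤ} (hv : Vec M s v)
    (h : ∀ r, r < s → a' r = a r) :
    dot v a' = dot v a + (v s : ℝ) * (a' s - a s) := by
  have : dot v a' - dot v a = (v s : ℝ) * (a' s - a s) := by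
    simp only [dot, ← Finset.sum_sub_distrib]
    rw [Finset.sum_eq_single s]
    · ring
    · intro r _ hr
      rcases lt_or_gt_of_ne hr with h1 | h1
      · rw [h r h1]; ring
      · rw [hv.1 r h1]; simp
    · simp
  linarith

theorem dot_congr {M : ℕ} {a a' : Fin d → ℝ} {s : Fin d} {v : Fin d → ℤ} (hv : Vec M s v)
    (h : ∀ r, r ≤ s → a' r = a r) : dot v a' = dot v a := by
  rw [dot_change hv fun r hr => h r hr.le, h s le_rfl]; ring

/-- Replacing the tail by a constant keeps admissibility. -/
theorem adm_replace {Q : ℝ} {M : ℕ} {e : Fin d → Bool} {a : Fin d → ℝ} (ha : Adm Q M e a)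
    (s : Fin d) (b : Bool) (m : ℝ) (hm : ∀ r, r < s → m ≤ a r)
    (hs : if b then (∃ v, Vec M s v ∧ dot v (fun j => if j < s then a j else m) = 0)
      else ∀ v, Vec M s v →
        |(v s : ℝ)| * rad Q e s ≤ |dot v (fun j => if j < s then a j else m)|) :
    Adm Q M (fun j => if j < s then e j else if j = s then b else true)
      (fun j => if j < s then a j else m) := by
  refine ⟨fun i j hij => ?_, fun j => ?_⟩
  · rcases lt_or_ge j s with hj | hj
    · simp only [if_pos hj, if_pos (lt_of_le_of_lt hij hj)]; exact ha.1 hij
    · rcases lt_or_ge i s with hi | hi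
      · simp only [if_pos hi, if_neg (not_lt.mpr hj)]; exact hm i hi
      · simp only [if_neg (not_lt.mpr hi), if_neg (not_lt.mpr hj)]; exact le_rfl
  · rcases lt_trichotomy j s with hj | hj | hj
    · have h1 := ha.2 j
      have hr : rad Q (fun r => if r < s then e r else if r = s then b else true) j = rad Q e j :=
        rad_congr Q fun r hr => by simp [hr.trans hj]
      have hdot : ∀ v, Vec M j v → dot v (fun r => if r < s then a r else m) = dot v a :=
        fun v hv => dot_congr hv fun r hr => by simp [lt_of_le_of_lt hr hj]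
      simp only [if_pos hj, hr]
      cases hej : e j
      · rw [hej] at h1
        simp only [Bool.false_eq_true, if_false] at h1 ⊢
        exact fun v hv => by rw [hdot v hv]; exact h1 v hv
      · rw [hej] at h1
        simp only [if_true] at h1 ⊢
        obtain ⟨v, hv, hv0⟩ := h1
        exact ⟨v, hv, by rw [hdot v hv]; exact hv0⟩
    · subst hj
      have hr : rad Q (fun r => if r < j then e r else if r = j then b else true) j = rad Q e j :=
        rad_congr Q fun r hr => by simp [hr]
      simp only [lt_irrefl, if_false, if_true, hr]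
      exact hs
    · simp only [if_neg (not_lt.mpr hj.le), if_neg (ne_of_gt hj), if_true]
      exact ⟨_, vec_tie hj, by rw [dot_tie hj]; simp [not_lt.mpr hj.le]⟩

/-- The slot estimate. -/
theorem slot_bound {M : ℕ} {R0 Q : ℝ} (hb : Big d M R0 Q) {y : Fin d → ℝ} (hy : ∀ s, 0 < y s)
    (hanti : Antitone y) {q : (Fin d → Bool) × (Fin d → ℝ)} (hq : IsBest Q M y q) (s : Fin d) :
    |Real.log (y s) - q.2 s| ≤ (if q.1 s then rad Q q.1 s else 0) + kk d Q := by
  obtain ⟨e, a⟩ := q
  simp only
  induction s using WellFoundedLT.induction with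
  | _ s ih =>
  have hQ := hb.one_le
  have hQ4 := hb.four_le
  have hdQ := hb.dim_le
  set R := rad Q e s with hR
  have hRQ : Q ≤ R := le_rad hQ e s
  have hRmax : R ≤ Q ^ (2 ^ d) := rad_le hQ e s
  set S : Finset (Fin d) := Finset.univ.filter (fun l => s ≤ l) with hS
  have hsS : s ∈ S := by simp [hS]
  set X := ∑ l ∈ S, y l with hX
  have hXs : y s ≤ X := Finset.single_le_sum (fun l _ => (hy l).le) hsS
  have hXpos : 0 < X := (hy s).trans_le hXs
  have hXd : X ≤ d * y s := by
    have h1 : X ≤ ∑ l ∈ S, y s := Finset.sum_le_sum fun l hl => hanti (by simpa [hS] using hl)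
    have h2 : (S.card : ℝ) ≤ d := by
      exact_mod_cast (Finset.card_le_univ S).trans (by simp)
    simp only [Finset.sum_const, nsmul_eq_mul] at h1
    exact h1.trans (by have := hy s; gcongr)
  set l := Real.log X with hl
  have hl1 : Real.log (y s) ≤ l := Real.log_le_log (hy s) hXs
  have hd0 : (0 : ℝ) < d := by exact_mod_cast s.pos
  have hl2 : l ≤ Real.log (y s) + d := by
    have h1 : l ≤ Real.log (d * y s) := Real.log_le_log hXpos hXd
    rw [Real.log_mul (by positivity) (hy s).ne'] at h1
    have := Real.log_le_sub_one_of_pos hd0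
    linarith
  have hexpl : Real.exp l = X := Real.exp_log hXpos
  set δ := a s - l with hδ
  set w := wt Q e s with hw
  -- upper bound for the tail of the maximiser
  have htail : ∑ j ∈ S, (y j * a j - wt Q e j * Real.exp (a j)) ≤ X * a s - w * Real.exp (a s) := by
    rw [Finset.sum_sub_distrib]
    have h1 : ∑ j ∈ S, y j * a j ≤ X * a s := by
      rw [hX, Finset.sum_mul]
      exact Finset.sum_le_sum fun j hj =>
        mul_le_mul_of_nonneg_left (hq.1.1 (by simpa [hS] using hj)) (hy j).le
    have h2 : w * Real.exp (a s) ≤ ∑ j ∈ S, wt Q e j * Real.exp (a j) :=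
      Finset.single_le_sum (f := fun j => wt Q e j * Real.exp (a j))
        (fun j _ => mul_nonneg (wt_pos Q e j).le (Real.exp_pos _).le) hsS
    linarith
  -- comparison with a competitor that is constant on the tail
  have compare : ∀ (b : Bool) (m : ℝ), (∀ r, r < s → m ≤ a r) →
      (if b then (∃ v, Vec M s v ∧ dot v (fun j => if j < s then a j else m) = 0)
      else ∀ v, Vec M s v →
        |(v s : ℝ)| * rad Q e s ≤ |dot v (fun j => if j < s then a j else m)|) →
      m ≤ l + (if b then R else 0) →
      X * m - (if b then Real.exp (-R) else 1) * Real.exp m - X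
        ≤ X * a s - w * Real.exp (a s) := by
    intro b m hm hs hmb
    set e' : Fin d → Bool := fun j => if j < s then e j else if j = s then b else true with he'
    set a' : Fin d → ℝ := fun j => if j < s then a j else m with ha'
    have hmax := hq.2 e' a' (adm_replace hq.1 s b m hm hs)
    have hsplit : ∀ (f : Fin d → ℝ), ∑ j, f j =
        (∑ j ∈ Finset.univ.filter (fun j => j < s), f j) + ∑ j ∈ S, f j := by
      intro f
      rw [← Finset.sum_filter_add_sum_filter_not Finset.univ (fun j => j < s)]
      simp only [not_lt, hS]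
    simp only [val] at hmax
    rw [hsplit, hsplit] at hmax
    have hpre : ∑ j ∈ Finset.univ.filter (fun j => j < s), (y j * a' j - wt Q e' j * Real.exp (a' j))
        = ∑ j ∈ Finset.univ.filter (fun j => j < s), (y j * a j - wt Q e j * Real.exp (a j)) := by
      refine Finset.sum_congr rfl fun j hj => ?_
      simp only [Finset.mem_filter, Finset.mem_univ, true_and] at hj
      have : wt Q e' j = wt Q e j := wt_congr Q fun r hr => by simp [he', lt_of_le_of_lt hr hj]
      simp [ha', hj, this]
    rw [hpre] at hmax
    have hlow : X * m - (if b then Real.exp (-R) else 1) * Real.exp m - X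
        ≤ ∑ j ∈ S, (y j * a' j - wt Q e' j * Real.exp (a' j)) := by
      have h1 : ∑ j ∈ S, (y j * a' j - wt Q e' j * Real.exp (a' j))
          = X * m - (∑ j ∈ S, wt Q e' j) * Real.exp m := by
        rw [hX, Finset.sum_mul, Finset.sum_mul, ← Finset.sum_sub_distrib]
        refine Finset.sum_congr rfl fun j hj => ?_
        have : ¬ j < s := not_lt.mpr (by simpa [hS] using hj)
        simp [ha', this]
      rw [h1, ← Finset.add_sum_erase S _ hsS, add_mul]
      have hws : wt Q e' s = if b then Real.exp (-R) else 1 := by
        unfold wt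
        have : rad Q e' s = R := rad_congr Q fun r hr => by simp [he', hr]
        rw [this]
        simp [he']
      have hrest : (∑ j ∈ S.erase s, wt Q e' j) * Real.exp m ≤ X := by
        have hj : ∀ j ∈ S.erase s, wt Q e' j * Real.exp m ≤ Real.exp (-Q) * X := by
          intro j hj
          simp only [Finset.mem_erase, hS, Finset.mem_filter, Finset.mem_univ, true_and] at hj
          have hlt : s < j := lt_of_le_of_ne hj.2 (Ne.symm hj.1)
          have hej : e' j = true := by simp [he', not_lt.mpr hlt.le, hj.1]
          have hrs : rad Q e' s = R := rad_congr Q fun r hr => by simp [he', hr]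
          rw [wt, if_pos hej, ← hexpl, ← Real.exp_add, ← Real.exp_add]
          refine Real.exp_le_exp.mpr ?_
          cases b with
          | false =>
            have := le_rad hQ e' j
            simp only [Bool.false_eq_true, if_false, add_zero] at hmb
            linarith
          | true =>
            have := rad_gap_true hQ hlt (show e' s = true by simp [he'])
            rw [hrs] at this
            simp only [if_true] at hmb
            nlinarith
        rw [Finset.sum_mul]
        have hc : ((S.erase s).card : ℝ) ≤ d := by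
          exact_mod_cast (Finset.card_le_univ _).trans (by simp)
        calc _ ≤ ∑ j ∈ S.erase s, Real.exp (-Q) * X := Finset.sum_le_sum hj
          _ = (S.erase s).card * (Real.exp (-Q) * X) := by rw [Finset.sum_const, nsmul_eq_mul]
          _ ≤ Q * (Real.exp (-Q) * X) := by gcongr; exact hc.trans hdQ
          _ ≤ 1 * X := by
            rw [← mul_assoc]
            gcongr
            rw [Real.exp_neg, ← div_eq_mul_inv, div_le_one (Real.exp_pos _)]
            linarith [Real.add_one_le_exp Q]
          _ = X := one_mul X
      rw [hws]; linarith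
    linarith
  -- the previous slot is not far below
  have hprev : ∀ r, r < s → l < a r + R := by
    intro r hr
    have h1 := ih r hr
    have h2 : Real.log (y s) ≤ Real.log (y r) := Real.log_le_log (hy s) (hanti hr.le)
    have h3 := (abs_le.mp h1).2
    have h4 : (if e r then rad Q e r else 0) + kk d Q + d < R := by
      have hk := hb.kk_le
      have := kk_nonneg (d := d) hQ
      cases her : e r with
      | false => simp only [Bool.false_eq_true, if_false]; linarith
      | true =>
        have hg := rad_gap_true hQ hr her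
        have := le_rad hQ e r
        simp only [if_true]
        nlinarith
    linarith
  -- choice of the competitor
  have cand : (∀ r, r < s → l ≤ a r) ∧ (∀ v, Vec M s v →
        |(v s : ℝ)| * R ≤ |dot v (fun j => if j < s then a j else l)|) ∨
      ∃ v τ, Vec M s v ∧ |τ - l| < R ∧ (∀ r, r < s → τ ≤ a r) ∧
        dot v (fun j => if j < s then a j else τ) = 0 := by
    by_cases hA : (∀ r, r < s → l ≤ a r) ∧ (∀ v, Vec M s v →
        |(v s : ℝ)| * R ≤ |dot v (fun j => if j < s then a j else l)|)
    · exact Or.inl hA
    refine Or.inr ?_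
    have viaPrev : (∃ r, r < s ∧ a r < l + R) →
        ∃ v τ, Vec M s v ∧ |τ - l| < R ∧ (∀ r, r < s → τ ≤ a r) ∧
          dot v (fun j => if j < s then a j else τ) = 0 := by
      rintro ⟨r0, hr0, hr0l⟩
      have hs0 : (s : ℕ) - 1 < d := by omega
      set r1 : Fin d := ⟨(s : ℕ) - 1, hs0⟩ with hr1
      have hr1s : r1 < s := by
        have : (r0 : ℕ) < s := hr0
        show (s : ℕ) - 1 < s
        omega
      have hle : ∀ r, r < s → r ≤ r1 := fun r hr => by
        have : (r : ℕ) < s := hr
        show (r : ℕ) ≤ (s : ℕ) - 1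
        omega
      refine ⟨_, a r1, vec_tie hr1s, ?_, fun r hr => hq.1.1 (hle r hr), ?_⟩
      · have h5 := hprev r1 hr1s
        have h6 := hq.1.1 (hle r0 hr0)
        rw [abs_lt]; constructor <;> linarith
      · rw [dot_tie hr1s]; simp [hr1s]
    rcases not_and_or.mp hA with h | h
    · push Not at h
      obtain ⟨r, hr, hlt⟩ := h
      exact viaPrev ⟨r, hr, by linarith⟩
    · push Not at h
      obtain ⟨v, hv, hlt⟩ := h
      set u : Fin d → ℝ := fun j => if j < s then a j else l with hu
      set τ := l - dot v u / (v s : ℝ) with hτ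
      have hv0 : (v s : ℝ) ≠ 0 := by exact_mod_cast hv.2.1
      have h1 : |τ - l| < R := by
        rw [hτ, sub_sub_cancel_left, abs_neg, abs_div, div_lt_iff₀ (abs_pos.mpr hv0)]
        linarith [mul_comm (|(v s : ℝ)|) R]
      by_cases h2 : ∀ r, r < s → τ ≤ a r
      · refine ⟨v, τ, hv, h1, h2, ?_⟩
        rw [dot_change hv (a := u) (fun r hr => by simp [hu, hr])]
        simp only [hu, lt_irrefl, if_false]
        rw [hτ]; field_simp; ring
      · push Not at h2
        obtain ⟨r, hr, hlt'⟩ := h2
        exact viaPrev ⟨r, hr, by linarith [(abs_lt.mp h1).2]⟩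
  have hexpδ : Real.exp (a s) = Real.exp δ * X := by
    rw [← hexpl, ← Real.exp_add]; simp [hδ]
  -- consequence: a lower bound, and a sharper one in each case
  have main : -R - 2 ≤ δ - w * Real.exp δ ∧
      (e s = false → -2 ≤ δ) := by
    rcases cand with ⟨h1, h2⟩ | ⟨v, τ, hv, hτl, hτa, hτ0⟩
    · have h := compare false l h1 (by simpa using h2) (by simp)
      simp only [Bool.false_eq_true, if_false, one_mul, hexpl] at h
      rw [hexpδ] at h
      have : -2 ≤ δ - w * Real.exp δ := by
        rw [hδ] at *
        nlinarith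
      exact ⟨by linarith, fun _ => by
        have := mul_pos (wt_pos Q e s) (Real.exp_pos δ)
        rw [← hw] at this; linarith⟩
    · have hτR := abs_lt.mp hτl
      have h := compare true τ hτa (by simpa using ⟨v, hv, hτ0⟩) (by simp; linarith)
      simp only [if_true, ← Real.exp_add] at h
      have hXe : Real.exp (-R + τ) ≤ X := by
        rw [← hexpl]; exact Real.exp_le_exp.mpr (by linarith)
      rw [hexpδ] at h
      have hk : (τ - l) - 2 ≤ δ - w * Real.exp δ := by
        rw [hδ] at *
        nlinarith
      refine ⟨by linarith, fun hes => ?_⟩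
      have h3 : |(v s : ℝ)| * R ≤ |dot v a| := adm_false hq.1 hes hv
      have h4 : dot v a = (v s : ℝ) * (a s - τ) := by
        have := dot_change hv (a := fun j => if j < s then a j else τ) (a' := a)
          (fun r hr => by simp [hr])
        simpa [hτ0] using this
      rw [h4, abs_mul] at h3
      have h5 : R ≤ |a s - τ| :=
        le_of_mul_le_mul_left h3 (abs_pos.mpr (by exact_mod_cast hv.2.1))
      have hpos : 0 ≤ w * Real.exp δ := mul_nonneg (wt_pos Q e s).le (Real.exp_pos _).le
      rcases le_abs.mp h5 with h6 | h6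
      · rw [hδ]; linarith
      · exfalso; rw [hδ] at hk hpos; linarith
  obtain ⟨hlow, hfree⟩ := main
  have hwpos : 0 ≤ w * Real.exp δ := mul_nonneg (wt_pos Q e s).le (Real.exp_pos _).le
  set c : ℝ := if e s then R else 0 with hc
  have hwc : w * Real.exp δ = Real.exp (δ - c) := by
    rw [hw, hc, wt]
    split_ifs
    · rw [← Real.exp_add]; congr 1; rw [hR]; ring
    · simp
  have hc0 : 0 ≤ c := by rw [hc]; split_ifs <;> linarith
  have hcR : c ≤ R := by rw [hc]; split_ifs <;> linarith
  have hup : δ - c ≤ Real.log (5 * Q ^ (2 ^ d)) := by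
    have h1 : Real.exp (δ - c) ≤ (δ - c) + (2 * R + 2) := by linarith
    refine (exp_self_bound (by linarith) h1).trans (Real.log_le_log (by linarith) (by linarith))
  have hlog : 0 ≤ Real.log (5 * Q ^ (2 ^ d)) :=
    Real.log_nonneg (by nlinarith [one_le_pow₀ (n := 2 ^ d) hQ])
  have hdown : -c - 2 ≤ δ := by
    cases hes : e s with
    | false => have := hfree hes; rw [hc, hes]; simpa using this
    | true => rw [hc, hes]; simp only [if_true]; linarith
  show |Real.log (y s) - a s| ≤ c + kk d Q
  rw [abs_le, kk]
  constructor <;> rw [hδ] at * <;> linarith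

end Vale.Agent.P072
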